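import Mathlib

/-!
# P232: band-free slices, affine calibrations

`A z` is the area of the slice at height `z`. If slices of area `A` have length at least
`√(π min(A, 1-A))`, every affine `g ≤ √(π min(A, 1-A))` calibrates:
`g(V) + ∫ √(1 - (g/f)²) dA ≤ p`.
-/

open MeasureTheory Set Filter intervalIntegral
open scoped Real Topology

noncomputable section

namespace Vale.Agent.P232.BandFree

/-- `min(x, 1-x)`. -/
def mh (x : ℝ) : ℝ := min x (1 - x)

/-- `√(1 - G²/min(x,1-x))`. -/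
def H (x G : ℝ) : ℝ := Real.sqrt (1 - G ^ 2 / mh x)

/-- The slicing inequality, slices of area `A` having length at least `√(π min(A,1-A))`. -/
structure Slicing (A : ℝ → ℝ) (p : ℝ) : Prop where
  anti : AntitoneOn A (Ioo 0 1)
  mem : ∀ z ∈ Ioo (0 : ℝ) 1, A z ∈ Icc (0 : ℝ) 1
  le : ∀ c s : ℝ → ℝ, Continuous c → Continuous s → (∀ x, 0 ≤ c x) → (∀ x, 0 ≤ s x) →
    (∀ x, c x ^ 2 + s x ^ 2 ≤ 1) → ∀ z₀ ∈ Ioo (0 : ℝ) 1, ∀ z₁ ∈ Ioo (0 : ℝ) 1, z₀ ≤ z₁ →
      (∫ z in (0 : ℝ)..1, c (A z) * Real.sqrt (π * mh (A z))) + (∫ x in A z₁..A z₀, s x) ≤ p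

theorem mh_nonneg {x : ℝ} (h : x ∈ Icc (0 : ℝ) 1) : 0 ≤ mh x :=
  le_min h.1 (by linarith [h.2])

theorem H_nonneg (x G : ℝ) : 0 ≤ H x G := Real.sqrt_nonneg _

theorem H_le_one {x : ℝ} (G : ℝ) (h : 0 ≤ mh x) : H x G ≤ 1 :=
  Real.sqrt_le_one.2 (sub_le_self _ (by positivity))

/-- A bounded measurable function of an antitone function is integrable on `(0,1)`. -/
theorem integrable_comp {A : ℝ → ℝ} (hA : AntitoneOn A (Ioo 0 1)) {φ : ℝ → ℝ}
    (hφ : Measurable φ) {M : ℝ} (hM : ∀ z ∈ Ioo (0 : ℝ) 1, ‖φ (A z)‖ ≤ M) :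
    IntervalIntegrable (fun z => φ (A z)) volume 0 1 := by
  rw [intervalIntegrable_iff_integrableOn_Ioo_of_le zero_le_one]
  exact IntegrableOn.of_bound measure_Ioo_lt_top
    ((hφ.comp_aemeasurable (aemeasurable_restrict_of_antitoneOn measurableSet_Ioo hA)).aestronglyMeasurable)
    M ((ae_restrict_iff' measurableSet_Ioo).2 (Eventually.of_forall hM))

theorem integrable_H {u v l r : ℝ} (hl : 0 ≤ l) (hlr : l ≤ r) (hr : r ≤ 1) :
    IntervalIntegrable (fun x => H x (u + v * x)) volume l r := by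
  rw [intervalIntegrable_iff_integrableOn_Ioo_of_le hlr]
  have hmeas : Measurable fun x => H x (u + v * x) := by unfold H mh; fun_prop
  refine IntegrableOn.of_bound measure_Ioo_lt_top hmeas.aestronglyMeasurable 1
    ((ae_restrict_iff' measurableSet_Ioo).2 (Eventually.of_forall fun x hx => ?_))
  rw [Real.norm_of_nonneg (H_nonneg _ _)]
  exact H_le_one _ (mh_nonneg ⟨hl.trans hx.1.le, hx.2.le.trans hr⟩)

/-- Affine calibration. -/
theorem calib {A : ℝ → ℝ} {p : ℝ} (hs : Slicing A p) {a b u v : ℝ} (ha : 0 ≤ a)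
    (hb : b ≤ 1) (hrange : ∀ z ∈ Ioo (0 : ℝ) 1, A z ∈ Icc a b)
    (hlo : ∀ δ : ℝ, 0 < δ → ∃ z ∈ Ioo (0 : ℝ) 1, A z < a + δ)
    (hhi : ∀ δ : ℝ, 0 < δ → ∃ z ∈ Ioo (0 : ℝ) 1, b - δ < A z)
    (hG : ∀ x ∈ Icc a b, 0 ≤ u + v * x ∧ (u + v * x) ^ 2 ≤ mh x) :
    Real.sqrt π * (u + v * ∫ z in (0 : ℝ)..1, A z) + (∫ x in a..b, H x (u + v * x)) ≤ p := by
  refine le_of_forall_pos_le_add fun δ hδ => ?_
  have hπ : 0 < Real.sqrt π := Real.sqrt_pos.2 Real.pi_pos
  set η := δ / (3 * (1 + Real.sqrt π))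
  have hη : 0 < η := by positivity
  have hδη : Real.sqrt π * η + 2 * η ≤ δ := by
    have : 3 * (1 + Real.sqrt π) * η = δ := by simp only [η]; field_simp
    nlinarith
  set c : ℝ → ℝ := fun x => min 1 (max 0 (u + v * x) / Real.sqrt (max 0 (mh x) + η ^ 2))
  set s : ℝ → ℝ := fun x => Real.sqrt (1 - c x ^ 2)
  have hne : ∀ x, Real.sqrt (max 0 (mh x) + η ^ 2) ≠ 0 := fun x => by positivity
  have hc : Continuous c := by
    refine continuous_const.min (Continuous.div (by fun_prop) (by unfold mh; fun_prop) hne)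
  have hc0 : ∀ x, 0 ≤ c x := fun x => le_min zero_le_one (by positivity)
  have hc1 : ∀ x, c x ≤ 1 := fun x => min_le_left _ _
  have hc2 : ∀ x, c x ^ 2 + s x ^ 2 ≤ 1 := fun x => by
    have : 0 ≤ 1 - c x ^ 2 := by nlinarith [hc0 x, hc1 x]
    simp [s, Real.sq_sqrt this]
  obtain ⟨w₀, hw₀, hw₀'⟩ := hhi η hη
  obtain ⟨w₁, hw₁, hw₁'⟩ := hlo η hη
  set z₀ := min w₀ w₁
  set z₁ := max w₀ w₁
  have hz₀ : z₀ ∈ Ioo (0 : ℝ) 1 := ⟨lt_min hw₀.1 hw₁.1, min_lt_of_left_lt hw₀.2⟩
  have hz₁ : z₁ ∈ Ioo (0 : ℝ) 1 := ⟨lt_max_of_lt_left hw₀.1, max_lt hw₀.2 hw₁.2⟩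
  have h0 : b - η < A z₀ := hw₀'.trans_le (hs.anti hz₀ hw₀ (min_le_left _ _))
  have h1 : A z₁ < a + η := (hs.anti hw₁ hz₁ (le_max_right _ _)).trans_lt hw₁'
  have h01 : A z₁ ≤ A z₀ := hs.anti hz₀ hz₁ min_le_max
  have key := hs.le c s hc (by fun_prop) hc0 (fun x => Real.sqrt_nonneg _) hc2 z₀ hz₀ z₁ hz₁
    min_le_max
  -- pointwise bounds on `[a, b]`
  have hcle : ∀ x ∈ Icc a b, c x ^ 2 ≤ (u + v * x) ^ 2 / mh x := by
    intro x hx
    obtain ⟨h2, h3⟩ := hG x hx
    have hm : 0 ≤ mh x := mh_nonneg ⟨ha.trans hx.1, hx.2.trans hb⟩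
    rcases hm.eq_or_lt with h | h
    · have : u + v * x = 0 := by nlinarith
      simp [c, this]
    calc c x ^ 2 ≤ (max 0 (u + v * x) / Real.sqrt (max 0 (mh x) + η ^ 2)) ^ 2 :=
          pow_le_pow_left₀ (hc0 x) (min_le_right _ _) 2
      _ = (u + v * x) ^ 2 / (mh x + η ^ 2) := by
          rw [div_pow, max_eq_right h2, Real.sq_sqrt (by positivity), max_eq_right hm]
      _ ≤ _ := by gcongr; nlinarith
  have hA' : ∀ z ∈ Ioo (0 : ℝ) 1, Real.sqrt π * (u + v * A z) - Real.sqrt π * η ≤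
      c (A z) * Real.sqrt (π * mh (A z)) := by
    intro z hz
    set x := A z
    obtain ⟨h2, h3⟩ := hG x (hrange z hz)
    have hm : 0 ≤ mh x := mh_nonneg (hs.mem z hz)
    set r := Real.sqrt (mh x)
    set R := Real.sqrt (max 0 (mh x) + η ^ 2)
    have hr : r ^ 2 = mh x := Real.sq_sqrt hm
    have hR : R ^ 2 = mh x + η ^ 2 := by
      rw [Real.sq_sqrt (by positivity), max_eq_right hm]
    have hRpos : 0 < R := lt_of_le_of_ne (Real.sqrt_nonneg _) (hne x).symm
    have hr0 : 0 ≤ r := Real.sqrt_nonneg _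
    have hGr : u + v * x ≤ r := abs_le_of_sq_le_sq' (by rwa [hr]) hr0 |>.2
    have hRr : R ≤ r + η := by nlinarith
    have hrR : r ≤ R := by nlinarith
    have hce : c x = (u + v * x) / R := by
      show min 1 (max 0 (u + v * x) / R) = _
      rw [max_eq_right h2, min_eq_right ((div_le_one hRpos).2 (hGr.trans hrR))]
    rw [Real.sqrt_mul Real.pi_pos.le, hce, ← mul_sub]
    refine le_trans (mul_le_mul_of_nonneg_left (c := (u + v * x) / R * r) ?_ hπ.le) (le_of_eq (by ring))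
    rw [div_mul_eq_mul_div, le_div_iff₀ hRpos]
    nlinarith [mul_le_mul_of_nonneg_left hRr h2, mul_le_mul_of_nonneg_left (hGr.trans hrR) hη.le]
  have hint : IntervalIntegrable A volume 0 1 :=
    integrable_comp hs.anti measurable_id fun z hz => by
      rw [id, Real.norm_of_nonneg (hs.mem z hz).1]; exact (hs.mem z hz).2
  have hI1 : Real.sqrt π * (u + v * ∫ z in (0 : ℝ)..1, A z) - Real.sqrt π * η ≤
      ∫ z in (0 : ℝ)..1, c (A z) * Real.sqrt (π * mh (A z)) := by
    have hl : IntervalIntegrable (fun z => Real.sqrt π * (u + v * A z) - Real.sqrt π * η)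
        volume 0 1 :=
      (((intervalIntegrable_const (c := u)).add (hint.const_mul v)).const_mul _).sub
        intervalIntegrable_const
    have hr : IntervalIntegrable (fun z => c (A z) * Real.sqrt (π * mh (A z))) volume 0 1 :=
      integrable_comp hs.anti (φ := fun x => c x * Real.sqrt (π * mh x))
        (by unfold mh; fun_prop) (M := Real.sqrt π) fun z hz => by
          rw [Real.norm_of_nonneg (mul_nonneg (hc0 _) (Real.sqrt_nonneg _))]
          refine (mul_le_of_le_one_left (Real.sqrt_nonneg _) (hc1 _)).trans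
            (Real.sqrt_le_sqrt (mul_le_of_le_one_right Real.pi_pos.le ?_))
          exact (min_le_left _ _).trans (hs.mem z hz).2
    refine le_trans (le_of_eq ?_) (integral_mono_on_of_le_Ioo zero_le_one hl hr hA')
    rw [intervalIntegral.integral_sub _ intervalIntegrable_const, intervalIntegral.integral_const_mul,
      intervalIntegral.integral_add intervalIntegrable_const (hint.const_mul v)]
    · simp
    · exact ((intervalIntegrable_const (c := u)).add (hint.const_mul v)).const_mul _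
  have hI2 : (∫ x in a..b, H x (u + v * x)) - 2 * η ≤ ∫ x in A z₁..A z₀, s x := by
    have m0 := hrange z₀ hz₀
    have m1 := hrange z₁ hz₁
    have i1 := integrable_H (u := u) (v := v) ha m1.1 (m1.2.trans hb)
    have i2 := integrable_H (u := u) (v := v) (ha.trans m1.1) h01 (m0.2.trans hb)
    have i3 := integrable_H (u := u) (v := v) (ha.trans m0.1) m0.2 hb
    rw [← integral_add_adjacent_intervals i1 (i2.trans i3),
      ← integral_add_adjacent_intervals i2 i3]
    have short : ∀ l r, a ≤ l → l ≤ r → r ≤ b → r - l ≤ η →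
        ∫ x in l..r, H x (u + v * x) ≤ η := by
      intro l r hl hlr hr hd
      refine (integral_mono_on hlr (integrable_H (ha.trans hl) hlr (hr.trans hb))
        intervalIntegrable_const fun x hx => H_le_one _ (mh_nonneg
          ⟨ha.trans (hl.trans hx.1), (hx.2.trans hr).trans hb⟩)).trans ?_
      simpa using hd
    have e1 := short a (A z₁) le_rfl m1.1 m1.2 (by linarith)
    have e3 := short (A z₀) b m0.1 m0.2 le_rfl (by linarith)
    have e2 : ∫ x in A z₁..A z₀, H x (u + v * x) ≤ ∫ x in A z₁..A z₀, s x :=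
      integral_mono_on h01 i2 ((by fun_prop : Continuous s).intervalIntegrable _ _) fun x hx =>
        Real.sqrt_le_sqrt (sub_le_sub_left (hcle x ⟨m1.1.trans hx.1, hx.2.trans m0.2⟩) 1)
    linarith
  linarith

end Vale.Agent.P232.BandFree
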