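import Vale.Agent.P232.BandFree.Data

/-!
# P232: the band-free theorem, one-variable form

If the area `A` of the slices is monotone and slices of area `A` have length at least
`√(π min(A, 1-A))`, the slicing inequality gives `p ≥ min(ball, tube, slab)` for every volume.
-/

open MeasureTheory Set intervalIntegral
open scoped Real

noncomputable section

namespace Vale.Agent.P232.BandFree

theorem bandFree_le_half {A : ℝ → ℝ} {p : ℝ} (hs : Slicing A p)
    (hV : ∫ z in (0 : ℝ)..1, A z ≤ 1 / 2) : jrel (∫ z in (0 : ℝ)..1, A z) ≤ p := by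
  set V := ∫ z in (0 : ℝ)..1, A z
  set S := A '' Ioo 0 1
  have hne : S.Nonempty := ⟨A (1 / 2), 1 / 2, by norm_num, rfl⟩
  have hbb : BddBelow S := ⟨0, by rintro _ ⟨z, hz, rfl⟩; exact (hs.mem z hz).1⟩
  have hba : BddAbove S := ⟨1, by rintro _ ⟨z, hz, rfl⟩; exact (hs.mem z hz).2⟩
  set a := sInf S
  set b := sSup S
  have hrange : ∀ z ∈ Ioo (0 : ℝ) 1, A z ∈ Icc a b := fun z hz =>
    ⟨csInf_le hbb ⟨z, hz, rfl⟩, le_csSup hba ⟨z, hz, rfl⟩⟩
  have hlo : ∀ δ : ℝ, 0 < δ → ∃ z ∈ Ioo (0 : ℝ) 1, A z < a + δ := fun δ hδ => by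
    obtain ⟨_, ⟨z, hz, rfl⟩, h⟩ := exists_lt_of_csInf_lt hne (lt_add_of_pos_right a hδ)
    exact ⟨z, hz, h⟩
  have hhi : ∀ δ : ℝ, 0 < δ → ∃ z ∈ Ioo (0 : ℝ) 1, b - δ < A z := fun δ hδ => by
    obtain ⟨_, ⟨z, hz, rfl⟩, h⟩ := exists_lt_of_lt_csSup hne (sub_lt_self b hδ)
    exact ⟨z, hz, h⟩
  have ha : 0 ≤ a := le_csInf hne (by rintro _ ⟨z, hz, rfl⟩; exact (hs.mem z hz).1)
  have hb1 : b ≤ 1 := csSup_le hne (by rintro _ ⟨z, hz, rfl⟩; exact (hs.mem z hz).2)
  have hi : IntervalIntegrable A volume 0 1 :=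
    integrable_comp hs.anti measurable_id fun z hz => by
      rw [id, Real.norm_of_nonneg (hs.mem z hz).1]; exact (hs.mem z hz).2
  have haV : a ≤ V := by
    simpa using integral_mono_on_of_le_Ioo zero_le_one intervalIntegrable_const hi
      fun z hz => (hrange z hz).1
  have hVb : V ≤ b := by
    simpa using integral_mono_on_of_le_Ioo zero_le_one hi intervalIntegrable_const
      fun z hz => (hrange z hz).2
  rcases le_or_gt b (1 / 2) with hb | hb
  · exact low hs ha hb hrange hlo hhi haV hVb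
  have ha2 : a ≤ 1 / 2 := haV.trans hV
  have h : Setting A p a b := ⟨hs, hrange, hlo, hhi, ha, hb1, haV, hV, hb.le, by linarith⟩
  rcases le_total a (1 / 9) with h1 | h1
  · rcases le_total b (3 / 5) with h2 | h2
    · rcases le_total a (1 / 36) with h3 | h3
      · rcases le_total b (21 / 40) with h4 | h4
        · exact Data.box0 h ⟨ha, h3⟩ ⟨hb.le, h4⟩
        · exact Data.box1 h ⟨ha, h3⟩ ⟨h4, h2⟩
      · exact Data.box2 h ⟨h3, h1⟩ ⟨hb.le, h2⟩
    rcases le_total b (29 / 40) with h4 | h4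
    · rcases le_total a (1 / 36) with h3 | h3
      · exact Data.box3 h ⟨ha, h3⟩ ⟨h2, h4⟩
      · exact Data.box4 h ⟨h3, h1⟩ ⟨h2, h4⟩
    rcases le_total b (33 / 40) with h5 | h5
    · exact Data.box5 h ⟨ha, h1⟩ ⟨h4, h5⟩
    rcases le_total b (37 / 40) with h6 | h6
    · exact Data.box6 h ⟨ha, h1⟩ ⟨h5, h6⟩
    · exact Data.box7 h ⟨ha, h1⟩ ⟨h6, hb1⟩
  rcases le_total a (8 / 25) with h2 | h2
  · rcases le_total b (3 / 4) with h3 | h3
    · rcases le_total a (1 / 4) with h4 | h4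
      · rcases le_total b (3 / 5) with h5 | h5
        · exact Data.box8 h ⟨h1, h4⟩ ⟨hb.le, h5⟩
        · exact Data.box9 h ⟨h1, h4⟩ ⟨h5, h3⟩
      · exact Data.box11 h ⟨h4, h2⟩ ⟨hb.le, h3⟩
    · exact Data.box10 h ⟨h1, h2⟩ ⟨h3, hb1⟩
  rcases le_total b (3 / 4) with h3 | h3
  · exact Data.box12 h ⟨h2, ha2⟩ ⟨hb.le, h3⟩
  · exact Data.box13 h ⟨h2, ha2⟩ ⟨h3, hb1⟩

theorem mh_one_sub (x : ℝ) : mh (1 - x) = mh x := by
  simp only [mh, sub_sub_cancel, min_comm]

theorem jrel_one_sub (V : ℝ) : jrel (1 - V) = jrel V := by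
  simp only [jrel, sub_sub_cancel, min_comm (1 - V) V]

/-- The complement, turned upside down. -/
theorem Slicing.compl {A : ℝ → ℝ} {p : ℝ} (hs : Slicing A p) :
    Slicing (fun z => 1 - A (1 - z)) p := by
  have hm : ∀ z ∈ Ioo (0 : ℝ) 1, 1 - z ∈ Ioo (0 : ℝ) 1 := fun z hz =>
    ⟨by linarith [hz.2], by linarith [hz.1]⟩
  refine ⟨fun x hx y hy hxy => ?_, fun z hz => ?_, ?_⟩
  · have := hs.anti (hm y hy) (hm x hx) (by linarith)
    linarith
  · obtain ⟨h0, h1⟩ := hs.mem _ (hm z hz)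
    exact ⟨by linarith, by linarith⟩
  intro c s hc hsc hc0 hs0 hcs z₀ hz₀ z₁ hz₁ hz
  have key := hs.le (fun x => c (1 - x)) (fun x => s (1 - x)) (by fun_prop) (by fun_prop)
    (fun x => hc0 _) (fun x => hs0 _) (fun x => hcs _) (1 - z₁) (hm z₁ hz₁) (1 - z₀) (hm z₀ hz₀)
    (by linarith)
  refine le_trans (le_of_eq ?_) key
  congr 1
  · simp only [mh_one_sub]
    have := intervalIntegral.integral_comp_sub_left (a := (0 : ℝ)) (b := 1)
      (fun z => c (1 - A z) * Real.sqrt (π * mh (A z))) 1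
    simpa using this
  · rw [intervalIntegral.integral_comp_sub_left (fun x => s x) 1]

/-- The band-free theorem, one-variable form. -/
theorem bandFree {A : ℝ → ℝ} {p : ℝ} (hs : Slicing A p) :
    jrel (∫ z in (0 : ℝ)..1, A z) ≤ p := by
  rcases le_total (∫ z in (0 : ℝ)..1, A z) (1 / 2) with hV | hV
  · exact bandFree_le_half hs hV
  have hi : IntervalIntegrable A volume 0 1 :=
    integrable_comp hs.anti measurable_id fun z hz => by
      rw [id, Real.norm_of_nonneg (hs.mem z hz).1]; exact (hs.mem z hz).2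
  have e : ∫ z in (0 : ℝ)..1, (1 - A (1 - z)) = 1 - ∫ z in (0 : ℝ)..1, A z := by
    rw [intervalIntegral.integral_comp_sub_left (fun z => 1 - A z) 1]
    simp [intervalIntegral.integral_sub intervalIntegrable_const hi]
  have := bandFree_le_half hs.compl (by rw [e]; linarith)
  rwa [e, jrel_one_sub] at this

end Vale.Agent.P232.BandFree
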