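import Vale.Agent.P232.Defs
import Vale.Agent.P232.BandFree.Real

/-!
# P232: the band-free theorem in terms of the candidate perimeter
-/

open MeasureTheory Set
open scoped Real

noncomputable section

namespace Vale.Agent.P232.BandFree

theorem candidate_eq_two_mul_jrel (V : ℝ) : candidate V = 2 * jrel V := by
  have e : (36 * π) ^ ((1 : ℝ) / 3) = 2 * (9 * π / 2) ^ ((1 : ℝ) / 3) := by
    have h8 : (8 : ℝ) ^ ((1 : ℝ) / 3) = 2 := by
      rw [show (8 : ℝ) = 2 ^ (3 : ℝ) by norm_num, ← Real.rpow_mul (by norm_num)]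
      norm_num
    rw [show 36 * π = 8 * (9 * π / 2) by ring, Real.mul_rpow (by norm_num) (by positivity), h8]
  rw [candidate, jrel, mul_min_of_nonneg _ _ (zero_le_two (α := ℝ)),
    mul_min_of_nonneg _ _ (zero_le_two (α := ℝ)), e,
    min_assoc, mul_one, mul_assoc]

/-- A monotone slicing without bands has perimeter at least that of ball, tube or slab. -/
theorem bandFreeReal (A : ℝ → ℝ) (p : ℝ) (hA : AntitoneOn A (Ioo 0 1))
    (hmem : ∀ z ∈ Ioo (0 : ℝ) 1, A z ∈ Icc (0 : ℝ) 1)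
    (h : ∀ c s : ℝ → ℝ, Continuous c → Continuous s → (∀ t, 0 ≤ c t) → (∀ t, 0 ≤ s t) →
      (∀ t, c t ^ 2 + s t ^ 2 ≤ 1) → ∀ z₀ ∈ Ioo (0 : ℝ) 1, ∀ z₁ ∈ Ioo (0 : ℝ) 1, z₀ ≤ z₁ →
        (∫ z in (0 : ℝ)..1, c (A z) * Real.sqrt (π * min (A z) (1 - A z))) +
          ∫ t in (A z₁)..(A z₀), s t ≤ p) :
    candidate (∫ z in (0 : ℝ)..1, A z) ≤ 2 * p := by
  rw [candidate_eq_two_mul_jrel]
  exact mul_le_mul_of_nonneg_left (bandFree ⟨hA, hmem, h⟩) zero_le_two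

end Vale.Agent.P232.BandFree
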