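import Vale.Agent.P232.BandFree.High

/-!
# P232: band-free slices, the certificates

Generated data: rational nodes below the chord profiles at the corners, and the triangles.
-/

noncomputable section

namespace Vale.Agent.P232.BandFree.Data

def q0 : Corner := ⟨0, 1 / 2, 0, 707 / 1000⟩

theorem v0 : q0.Valid := by constructor <;> norm_num [q0, mh, min_def]

theorem c0 : 6637 / 10000 ≤ q0.C := trap_le_C v0 (r₀ := 1)
  (l := [(1 / 30, 983 / 1000), (1 / 8, 187 / 200), (1 / 4, 433 / 500), (3 / 8, 79 / 100), (1 / 2, 707 / 1000), (5 / 8, 153 / 250), (3 / 4, 1 / 2), (7 / 8, 353 / 1000), (29 / 30, 183 / 1000), (1, 17 / 1000)])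
  (by norm_num [q0, mh, min_def, Corner.seg])
  (by norm_num [Nodes, q0, mh, min_def, Corner.seg]) (by norm_num [trap])

def q1 : Corner := ⟨1 / 36, 1 / 2, 83 / 500, 707 / 1000⟩

theorem v1 : q1.Valid := by constructor <;> norm_num [q1, mh, min_def]

theorem c1 : 4551 / 10000 ≤ q1.C := trap_le_C v1 (r₀ := 89 / 1000)
  (l := [(1 / 30, 47 / 100), (1 / 8, 609 / 1000), (1 / 4, 307 / 500), (3 / 8, 579 / 1000), (1 / 2, 527 / 1000), (5 / 8, 461 / 1000), (3 / 4, 379 / 1000), (7 / 8, 27 / 100), (29 / 30, 7 / 50), (1, 17 / 1000)])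
  (by norm_num [q1, mh, min_def, Corner.seg])
  (by norm_num [Nodes, q1, mh, min_def, Corner.seg]) (by norm_num [trap])

def q2 : Corner := ⟨0, 21 / 40, 0, 689 / 1000⟩

theorem v2 : q2.Valid := by constructor <;> norm_num [q2, mh, min_def]

theorem c2 : 7083 / 10000 ≤ q2.C := trap_le_C v2 (r₀ := 1)
  (l := [(1 / 30, 123 / 125), (1 / 8, 941 / 1000), (1 / 4, 879 / 1000), (3 / 8, 203 / 250), (1 / 2, 37 / 50), (5 / 8, 659 / 1000), (3 / 4, 567 / 1000), (7 / 8, 57 / 125), (20 / 21, 93 / 250), (29 / 30, 63 / 200), (1, 3 / 125)])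
  (by norm_num [q2, mh, min_def, Corner.seg])
  (by norm_num [Nodes, q2, mh, min_def, Corner.seg]) (by norm_num [trap])

theorem t0 : Tri ![q0, q1, q2] ![6637 / 10000, 4551 / 10000, 7083 / 10000] where

  valid i := by fin_cases i <;> simp [v0, v1, v2]

  hC i := by fin_cases i <;> simp [c0, c1, c2]

  half := by (simp only [Cert, form, Matrix.cons_val, Matrix.cons_val_zero, Matrix.cons_val_one]; norm_num [sp, piHi, q0, q1, q2])

  rest := Or.inl ⟨13 / 20, by norm_num, by (simp only [Cert, form, Matrix.cons_val, Matrix.cons_val_zero, Matrix.cons_val_one]; norm_num [sp, piHi, q0, q1, q2]), by (simp only [Cert, form, Matrix.cons_val, Matrix.cons_val_zero, Matrix.cons_val_one]; norm_num [sp, piHi, q0, q1, q2])⟩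

def q3 : Corner := ⟨1 / 36, 21 / 40, 83 / 500, 689 / 1000⟩

theorem v3 : q3.Valid := by constructor <;> norm_num [q3, mh, min_def]

theorem c3 : 1303 / 2500 ≤ q3.C := trap_le_C v3 (r₀ := 89 / 1000)
  (l := [(1 / 30, 491 / 1000), (1 / 8, 159 / 250), (1 / 4, 81 / 125), (3 / 8, 311 / 500), (1 / 2, 291 / 500), (5 / 8, 531 / 1000), (3 / 4, 471 / 1000), (7 / 8, 399 / 1000), (170 / 179, 87 / 250), (29 / 30, 287 / 1000), (1, 3 / 125)])
  (by norm_num [q3, mh, min_def, Corner.seg])
  (by norm_num [Nodes, q3, mh, min_def, Corner.seg]) (by norm_num [trap])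

theorem t1 : Tri ![q3, q2, q1] ![1303 / 2500, 7083 / 10000, 4551 / 10000] where

  valid i := by fin_cases i <;> simp [v3, v2, v1]

  hC i := by fin_cases i <;> simp [c3, c2, c1]

  half := by (simp only [Cert, form, Matrix.cons_val, Matrix.cons_val_zero, Matrix.cons_val_one]; norm_num [sp, piHi, q1, q2, q3])

  rest := Or.inl ⟨7 / 10, by norm_num, by (simp only [Cert, form, Matrix.cons_val, Matrix.cons_val_zero, Matrix.cons_val_one]; norm_num [sp, piHi, q1, q2, q3]), by (simp only [Cert, form, Matrix.cons_val, Matrix.cons_val_zero, Matrix.cons_val_one]; norm_num [sp, piHi, q1, q2, q3])⟩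

def q4 : Corner := ⟨0, 3 / 5, 0, 79 / 125⟩

theorem v4 : q4.Valid := by constructor <;> norm_num [q4, mh, min_def]

theorem c4 : 973 / 1250 ≤ q4.C := trap_le_C v4 (r₀ := 1)
  (l := [(1 / 30, 247 / 250), (1 / 8, 957 / 1000), (1 / 4, 913 / 1000), (3 / 8, 433 / 500), (1 / 2, 102 / 125), (5 / 8, 191 / 250), (3 / 4, 707 / 1000), (5 / 6, 667 / 1000), (7 / 8, 149 / 250), (29 / 30, 333 / 1000), (1, 37 / 1000)])
  (by norm_num [q4, mh, min_def, Corner.seg])
  (by norm_num [Nodes, q4, mh, min_def, Corner.seg]) (by norm_num [trap])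

theorem t2 : Tri ![q2, q3, q4] ![7083 / 10000, 1303 / 2500, 973 / 1250] where

  valid i := by fin_cases i <;> simp [v2, v3, v4]

  hC i := by fin_cases i <;> simp [c2, c3, c4]

  half := by (simp only [Cert, form, Matrix.cons_val, Matrix.cons_val_zero, Matrix.cons_val_one]; norm_num [sp, piHi, q2, q3, q4])

  rest := Or.inl ⟨29 / 40, by norm_num, by (simp only [Cert, form, Matrix.cons_val, Matrix.cons_val_zero, Matrix.cons_val_one]; norm_num [sp, piHi, q2, q3, q4]), by (simp only [Cert, form, Matrix.cons_val, Matrix.cons_val_zero, Matrix.cons_val_one]; norm_num [sp, piHi, q2, q3, q4])⟩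

def q5 : Corner := ⟨1 / 36, 3 / 5, 83 / 500, 79 / 125⟩

theorem v5 : q5.Valid := by constructor <;> norm_num [q5, mh, min_def]

theorem c5 : 6273 / 10000 ≤ q5.C := trap_le_C v5 (r₀ := 89 / 1000)
  (l := [(1 / 30, 68 / 125), (1 / 8, 351 / 500), (1 / 4, 729 / 1000), (3 / 8, 721 / 1000), (1 / 2, 351 / 500), (5 / 8, 169 / 250), (3 / 4, 323 / 500), (85 / 103, 627 / 1000), (7 / 8, 549 / 1000), (29 / 30, 61 / 200), (1, 37 / 1000)])
  (by norm_num [q5, mh, min_def, Corner.seg])
  (by norm_num [Nodes, q5, mh, min_def, Corner.seg]) (by norm_num [trap])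

theorem t3 : Tri ![q5, q4, q3] ![6273 / 10000, 973 / 1250, 1303 / 2500] where

  valid i := by fin_cases i <;> simp [v5, v4, v3]

  hC i := by fin_cases i <;> simp [c5, c4, c3]

  half := by (simp only [Cert, form, Matrix.cons_val, Matrix.cons_val_zero, Matrix.cons_val_one]; norm_num [sp, piHi, q3, q4, q5])

  rest := Or.inl ⟨33 / 40, by norm_num, by (simp only [Cert, form, Matrix.cons_val, Matrix.cons_val_zero, Matrix.cons_val_one]; norm_num [sp, piHi, q3, q4, q5]), by (simp only [Cert, form, Matrix.cons_val, Matrix.cons_val_zero, Matrix.cons_val_one]; norm_num [sp, piHi, q3, q4, q5])⟩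

def q6 : Corner := ⟨1 / 9, 1 / 2, 333 / 1000, 707 / 1000⟩

theorem v6 : q6.Valid := by constructor <;> norm_num [q6, mh, min_def]

theorem c6 : 1373 / 5000 ≤ q6.C := trap_le_C v6 (r₀ := 11 / 250)
  (l := [(1 / 30, 39 / 200), (1 / 8, 311 / 1000), (1 / 4, 89 / 250), (3 / 8, 179 / 500), (1 / 2, 339 / 1000), (5 / 8, 61 / 200), (3 / 4, 51 / 200), (7 / 8, 37 / 200), (29 / 30, 97 / 1000), (1, 17 / 1000)])
  (by norm_num [q6, mh, min_def, Corner.seg])
  (by norm_num [Nodes, q6, mh, min_def, Corner.seg]) (by norm_num [trap])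

theorem t4 : Tri ![q1, q6, q5] ![4551 / 10000, 1373 / 5000, 6273 / 10000] where

  valid i := by fin_cases i <;> simp [v1, v6, v5]

  hC i := by fin_cases i <;> simp [c1, c6, c5]

  half := by (simp only [Cert, form, Matrix.cons_val, Matrix.cons_val_zero, Matrix.cons_val_one]; norm_num [sp, piHi, q1, q5, q6])

  rest := Or.inl ⟨17 / 20, by norm_num, by (simp only [Cert, form, Matrix.cons_val, Matrix.cons_val_zero, Matrix.cons_val_one]; norm_num [sp, piHi, q1, q5, q6]), by (simp only [Cert, form, Matrix.cons_val, Matrix.cons_val_zero, Matrix.cons_val_one]; norm_num [sp, piHi, q1, q5, q6])⟩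

def q7 : Corner := ⟨1 / 9, 3 / 5, 333 / 1000, 79 / 125⟩

theorem v7 : q7.Valid := by constructor <;> norm_num [q7, mh, min_def]

theorem c7 : 4983 / 10000 ≤ q7.C := trap_le_C v7 (r₀ := 11 / 250)
  (l := [(1 / 30, 277 / 1000), (1 / 8, 451 / 1000), (1 / 4, 67 / 125), (3 / 8, 571 / 1000), (1 / 2, 587 / 1000), (5 / 8, 74 / 125), (3 / 4, 591 / 1000), (35 / 44, 59 / 100), (7 / 8, 241 / 500), (29 / 30, 53 / 200), (1, 37 / 1000)])
  (by norm_num [q7, mh, min_def, Corner.seg])
  (by norm_num [Nodes, q7, mh, min_def, Corner.seg]) (by norm_num [trap])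

theorem t5 : Tri ![q7, q5, q6] ![4983 / 10000, 6273 / 10000, 1373 / 5000] where

  valid i := by fin_cases i <;> simp [v7, v5, v6]

  hC i := by fin_cases i <;> simp [c7, c5, c6]

  half := by (simp only [Cert, form, Matrix.cons_val, Matrix.cons_val_zero, Matrix.cons_val_one]; norm_num [sp, piHi, q5, q6, q7])

  rest := Or.inl ⟨37 / 40, by norm_num, by (simp only [Cert, form, Matrix.cons_val, Matrix.cons_val_zero, Matrix.cons_val_one]; norm_num [sp, piHi, q5, q6, q7]), by (simp only [Cert, form, Matrix.cons_val, Matrix.cons_val_zero, Matrix.cons_val_one]; norm_num [sp, piHi, q5, q6, q7])⟩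

def q8 : Corner := ⟨0, 29 / 40, 0, 131 / 250⟩

theorem v8 : q8.Valid := by constructor <;> norm_num [q8, mh, min_def]

theorem c8 : 8381 / 10000 ≤ q8.C := trap_le_C v8 (r₀ := 1)
  (l := [(1 / 30, 993 / 1000), (1 / 8, 122 / 125), (1 / 4, 951 / 1000), (3 / 8, 463 / 500), (1 / 2, 9 / 10), (5 / 8, 873 / 1000), (20 / 29, 859 / 1000), (3 / 4, 813 / 1000), (7 / 8, 651 / 1000), (29 / 30, 377 / 1000), (1, 39 / 1000)])
  (by norm_num [q8, mh, min_def, Corner.seg])
  (by norm_num [Nodes, q8, mh, min_def, Corner.seg]) (by norm_num [trap])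

theorem t6 : Tri ![q4, q5, q8] ![973 / 1250, 6273 / 10000, 8381 / 10000] where

  valid i := by fin_cases i <;> simp [v4, v5, v8]

  hC i := by fin_cases i <;> simp [c4, c5, c8]

  half := by (simp only [Cert, form, Matrix.cons_val, Matrix.cons_val_zero, Matrix.cons_val_one]; norm_num [sp, piHi, q4, q5, q8])

  rest := Or.inl ⟨9 / 10, by norm_num, by (simp only [Cert, form, Matrix.cons_val, Matrix.cons_val_zero, Matrix.cons_val_one]; norm_num [sp, piHi, q4, q5, q8]), by (simp only [Cert, form, Matrix.cons_val, Matrix.cons_val_zero, Matrix.cons_val_one]; norm_num [sp, piHi, q4, q5, q8])⟩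

def q9 : Corner := ⟨1 / 36, 29 / 40, 83 / 500, 131 / 250⟩

theorem v9 : q9.Valid := by constructor <;> norm_num [q9, mh, min_def]

theorem c9 : 7209 / 10000 ≤ q9.C := trap_le_C v9 (r₀ := 89 / 1000)
  (l := [(1 / 30, 123 / 200), (1 / 8, 783 / 1000), (1 / 4, 411 / 500), (3 / 8, 829 / 1000), (1 / 2, 413 / 500), (5 / 8, 819 / 1000), (170 / 251, 102 / 125), (3 / 4, 761 / 1000), (7 / 8, 151 / 250), (29 / 30, 347 / 1000), (1, 39 / 1000)])
  (by norm_num [q9, mh, min_def, Corner.seg])
  (by norm_num [Nodes, q9, mh, min_def, Corner.seg]) (by norm_num [trap])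

theorem t7 : Tri ![q9, q8, q5] ![7209 / 10000, 8381 / 10000, 6273 / 10000] where

  valid i := by fin_cases i <;> simp [v9, v8, v5]

  hC i := by fin_cases i <;> simp [c9, c8, c5]

  half := by (simp only [Cert, form, Matrix.cons_val, Matrix.cons_val_zero, Matrix.cons_val_one]; norm_num [sp, piHi, q5, q8, q9])

  rest := Or.inl ⟨1, by norm_num, by (simp only [Cert, form, Matrix.cons_val, Matrix.cons_val_zero, Matrix.cons_val_one]; norm_num [sp, piHi, q5, q8, q9]), by (simp only [Cert, form, Matrix.cons_val, Matrix.cons_val_zero, Matrix.cons_val_one]; norm_num [sp, piHi, q5, q8, q9])⟩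

theorem t8 : Tri ![q5, q7, q9] ![6273 / 10000, 4983 / 10000, 7209 / 10000] where

  valid i := by fin_cases i <;> simp [v5, v7, v9]

  hC i := by fin_cases i <;> simp [c5, c7, c9]

  half := by (simp only [Cert, form, Matrix.cons_val, Matrix.cons_val_zero, Matrix.cons_val_one]; norm_num [sp, piHi, q5, q7, q9])

  rest := Or.inl ⟨1, by norm_num, by (simp only [Cert, form, Matrix.cons_val, Matrix.cons_val_zero, Matrix.cons_val_one]; norm_num [sp, piHi, q5, q7, q9]), by (simp only [Cert, form, Matrix.cons_val, Matrix.cons_val_zero, Matrix.cons_val_one]; norm_num [sp, piHi, q5, q7, q9])⟩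

def q10 : Corner := ⟨1 / 9, 29 / 40, 333 / 1000, 131 / 250⟩

theorem v10 : q10.Valid := by constructor <;> norm_num [q10, mh, min_def]

theorem c10 : 1223 / 2000 ≤ q10.C := trap_le_C v10 (r₀ := 11 / 250)
  (l := [(1 / 30, 353 / 1000), (1 / 8, 567 / 1000), (1 / 4, 84 / 125), (3 / 8, 721 / 1000), (1 / 2, 187 / 250), (5 / 8, 153 / 200), (140 / 221, 383 / 500), (3 / 4, 343 / 500), (7 / 8, 537 / 1000), (29 / 30, 61 / 200), (1, 39 / 1000)])
  (by norm_num [q10, mh, min_def, Corner.seg])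
  (by norm_num [Nodes, q10, mh, min_def, Corner.seg]) (by norm_num [trap])

theorem t9 : Tri ![q10, q9, q7] ![1223 / 2000, 7209 / 10000, 4983 / 10000] where

  valid i := by fin_cases i <;> simp [v10, v9, v7]

  hC i := by fin_cases i <;> simp [c10, c9, c7]

  half := by (simp only [Cert, form, Matrix.cons_val, Matrix.cons_val_zero, Matrix.cons_val_one]; norm_num [sp, piHi, q7, q9, q10])

  rest := Or.inl ⟨1, by norm_num, by (simp only [Cert, form, Matrix.cons_val, Matrix.cons_val_zero, Matrix.cons_val_one]; norm_num [sp, piHi, q7, q9, q10]), by (simp only [Cert, form, Matrix.cons_val, Matrix.cons_val_zero, Matrix.cons_val_one]; norm_num [sp, piHi, q7, q9, q10])⟩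

def q11 : Corner := ⟨0, 33 / 40, 0, 209 / 500⟩

theorem v11 : q11.Valid := by constructor <;> norm_num [q11, mh, min_def]

theorem c11 : 8751 / 10000 ≤ q11.C := trap_le_C v11 (r₀ := 1)
  (l := [(1 / 30, 249 / 250), (1 / 8, 493 / 500), (1 / 4, 973 / 1000), (3 / 8, 959 / 1000), (1 / 2, 189 / 200), (20 / 33, 933 / 1000), (5 / 8, 463 / 500), (3 / 4, 861 / 1000), (7 / 8, 18 / 25), (29 / 30, 11 / 25), (1, 39 / 1000)])
  (by norm_num [q11, mh, min_def, Corner.seg])
  (by norm_num [Nodes, q11, mh, min_def, Corner.seg]) (by norm_num [trap])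

theorem t10 : Tri ![q8, q10, q11] ![8381 / 10000, 1223 / 2000, 8751 / 10000] where

  valid i := by fin_cases i <;> simp [v8, v10, v11]

  hC i := by fin_cases i <;> simp [c8, c10, c11]

  half := by (simp only [Cert, form, Matrix.cons_val, Matrix.cons_val_zero, Matrix.cons_val_one]; norm_num [sp, piHi, q8, q10, q11])

  rest := Or.inl ⟨1, by norm_num, by (simp only [Cert, form, Matrix.cons_val, Matrix.cons_val_zero, Matrix.cons_val_one]; norm_num [sp, piHi, q8, q10, q11]), by (simp only [Cert, form, Matrix.cons_val, Matrix.cons_val_zero, Matrix.cons_val_one]; norm_num [sp, piHi, q8, q10, q11])⟩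

def q12 : Corner := ⟨1 / 9, 33 / 40, 333 / 1000, 209 / 500⟩

theorem v12 : q12.Valid := by constructor <;> norm_num [q12, mh, min_def]

theorem c12 : 3397 / 5000 ≤ q12.C := trap_le_C v12 (r₀ := 11 / 250)
  (l := [(1 / 30, 101 / 250), (1 / 8, 16 / 25), (1 / 4, 94 / 125), (3 / 8, 161 / 200), (1 / 2, 167 / 200), (140 / 257, 843 / 1000), (5 / 8, 407 / 500), (3 / 4, 93 / 125), (7 / 8, 609 / 1000), (29 / 30, 91 / 250), (1, 39 / 1000)])
  (by norm_num [q12, mh, min_def, Corner.seg])
  (by norm_num [Nodes, q12, mh, min_def, Corner.seg]) (by norm_num [trap])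

theorem t11 : Tri ![q12, q11, q10] ![3397 / 5000, 8751 / 10000, 1223 / 2000] where

  valid i := by fin_cases i <;> simp [v12, v11, v10]

  hC i := by fin_cases i <;> simp [c12, c11, c10]

  half := by (simp only [Cert, form, Matrix.cons_val, Matrix.cons_val_zero, Matrix.cons_val_one]; norm_num [sp, piHi, q10, q11, q12])

  rest := Or.inl ⟨1, by norm_num, by (simp only [Cert, form, Matrix.cons_val, Matrix.cons_val_zero, Matrix.cons_val_one]; norm_num [sp, piHi, q10, q11, q12]), by (simp only [Cert, form, Matrix.cons_val, Matrix.cons_val_zero, Matrix.cons_val_one]; norm_num [sp, piHi, q10, q11, q12])⟩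

def q13 : Corner := ⟨0, 37 / 40, 0, 273 / 1000⟩

theorem v13 : q13.Valid := by constructor <;> norm_num [q13, mh, min_def]

theorem c13 : 921 / 1000 ≤ q13.C := trap_le_C v13 (r₀ := 1)
  (l := [(1 / 30, 499 / 500), (1 / 8, 497 / 500), (1 / 4, 989 / 1000), (3 / 8, 123 / 125), (1 / 2, 979 / 1000), (20 / 37, 977 / 1000), (5 / 8, 241 / 250), (3 / 4, 929 / 1000), (7 / 8, 837 / 1000), (29 / 30, 73 / 125), (1, 79 / 1000)])
  (by norm_num [q13, mh, min_def, Corner.seg])
  (by norm_num [Nodes, q13, mh, min_def, Corner.seg]) (by norm_num [trap])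

theorem t12 : Tri ![q11, q12, q13] ![8751 / 10000, 3397 / 5000, 921 / 1000] where

  valid i := by fin_cases i <;> simp [v11, v12, v13]

  hC i := by fin_cases i <;> simp [c11, c12, c13]

  half := by (simp only [Cert, form, Matrix.cons_val, Matrix.cons_val_zero, Matrix.cons_val_one]; norm_num [sp, piHi, q11, q12, q13])

  rest := Or.inl ⟨1, by norm_num, by (simp only [Cert, form, Matrix.cons_val, Matrix.cons_val_zero, Matrix.cons_val_one]; norm_num [sp, piHi, q11, q12, q13]), by (simp only [Cert, form, Matrix.cons_val, Matrix.cons_val_zero, Matrix.cons_val_one]; norm_num [sp, piHi, q11, q12, q13])⟩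

def q14 : Corner := ⟨1 / 9, 37 / 40, 333 / 1000, 273 / 1000⟩

theorem v14 : q14.Valid := by constructor <;> norm_num [q14, mh, min_def]

theorem c14 : 759 / 1000 ≤ q14.C := trap_le_C v14 (r₀ := 11 / 250)
  (l := [(1 / 30, 91 / 200), (1 / 8, 177 / 250), (1 / 4, 823 / 1000), (3 / 8, 219 / 250), (140 / 293, 451 / 500), (1 / 2, 899 / 1000), (5 / 8, 877 / 1000), (3 / 4, 837 / 1000), (7 / 8, 93 / 125), (29 / 30, 509 / 1000), (1, 79 / 1000)])
  (by norm_num [q14, mh, min_def, Corner.seg])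
  (by norm_num [Nodes, q14, mh, min_def, Corner.seg]) (by norm_num [trap])

theorem t13 : Tri ![q14, q13, q12] ![759 / 1000, 921 / 1000, 3397 / 5000] where

  valid i := by fin_cases i <;> simp [v14, v13, v12]

  hC i := by fin_cases i <;> simp [c14, c13, c12]

  half := by (simp only [Cert, form, Matrix.cons_val, Matrix.cons_val_zero, Matrix.cons_val_one]; norm_num [sp, piHi, q12, q13, q14])

  rest := Or.inl ⟨1, by norm_num, by (simp only [Cert, form, Matrix.cons_val, Matrix.cons_val_zero, Matrix.cons_val_one]; norm_num [sp, piHi, q12, q13, q14]), by (simp only [Cert, form, Matrix.cons_val, Matrix.cons_val_zero, Matrix.cons_val_one]; norm_num [sp, piHi, q12, q13, q14])⟩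

def q15 : Corner := ⟨0, 1, 0, 0⟩

theorem v15 : q15.Valid := by constructor <;> norm_num [q15, mh, min_def]

theorem c15 : 1 ≤ q15.C := trap_le_C v15 (r₀ := 1)
  (l := [(1 / 30, 1), (1 / 8, 1), (1 / 4, 1), (3 / 8, 1), (1 / 2, 1), (5 / 8, 1), (3 / 4, 1), (7 / 8, 1), (29 / 30, 1), (1, 1)])
  (by norm_num [q15, mh, min_def, Corner.seg])
  (by norm_num [Nodes, q15, mh, min_def, Corner.seg]) (by norm_num [trap])

theorem t14 : Tri ![q13, q14, q15] ![921 / 1000, 759 / 1000, 1] where

  valid i := by fin_cases i <;> simp [v13, v14, v15]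

  hC i := by fin_cases i <;> simp [c13, c14, c15]

  half := by (simp only [Cert, form, Matrix.cons_val, Matrix.cons_val_zero, Matrix.cons_val_one]; norm_num [sp, piHi, q13, q14, q15])

  rest := Or.inl ⟨1, by norm_num, by (simp only [Cert, form, Matrix.cons_val, Matrix.cons_val_zero, Matrix.cons_val_one]; norm_num [sp, piHi, q13, q14, q15]), by (simp only [Cert, form, Matrix.cons_val, Matrix.cons_val_zero, Matrix.cons_val_one]; norm_num [sp, piHi, q13, q14, q15])⟩

def q16 : Corner := ⟨1 / 9, 1, 333 / 1000, 0⟩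

theorem v16 : q16.Valid := by constructor <;> norm_num [q16, mh, min_def]

theorem c16 : 451 / 500 ≤ q16.C := trap_le_C v16 (r₀ := 11 / 250)
  (l := [(1 / 30, 513 / 1000), (1 / 8, 393 / 500), (1 / 4, 901 / 1000), (3 / 8, 19 / 20), (7 / 16, 241 / 250), (1 / 2, 121 / 125), (5 / 8, 122 / 125), (3 / 4, 123 / 125), (7 / 8, 124 / 125), (29 / 30, 997 / 1000), (1, 1)])
  (by norm_num [q16, mh, min_def, Corner.seg])
  (by norm_num [Nodes, q16, mh, min_def, Corner.seg]) (by norm_num [trap])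

theorem t15 : Tri ![q16, q15, q14] ![451 / 500, 1, 759 / 1000] where

  valid i := by fin_cases i <;> simp [v16, v15, v14]

  hC i := by fin_cases i <;> simp [c16, c15, c14]

  half := by (simp only [Cert, form, Matrix.cons_val, Matrix.cons_val_zero, Matrix.cons_val_one]; norm_num [sp, piHi, q14, q15, q16])

  rest := Or.inl ⟨1, by norm_num, by (simp only [Cert, form, Matrix.cons_val, Matrix.cons_val_zero, Matrix.cons_val_one]; norm_num [sp, piHi, q14, q15, q16]), by (simp only [Cert, form, Matrix.cons_val, Matrix.cons_val_zero, Matrix.cons_val_one]; norm_num [sp, piHi, q14, q15, q16])⟩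

def q17 : Corner := ⟨1 / 4, 1 / 2, 1 / 2, 707 / 1000⟩

theorem v17 : q17.Valid := by constructor <;> norm_num [q17, mh, min_def]

theorem c17 : 1323 / 10000 ≤ q17.C := trap_le_C v17 (r₀ := 0)
  (l := [(1 / 30, 73 / 1000), (1 / 8, 129 / 1000), (1 / 4, 4 / 25), (3 / 8, 171 / 1000), (1 / 2, 169 / 1000), (5 / 8, 157 / 1000), (3 / 4, 17 / 125), (7 / 8, 101 / 1000), (29 / 30, 11 / 200), (1, 17 / 1000)])
  (by norm_num [q17, mh, min_def, Corner.seg])
  (by norm_num [Nodes, q17, mh, min_def, Corner.seg]) (by norm_num [trap])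

theorem t16 : Tri ![q6, q17, q7] ![1373 / 5000, 1323 / 10000, 4983 / 10000] where

  valid i := by fin_cases i <;> simp [v6, v17, v7]

  hC i := by fin_cases i <;> simp [c6, c17, c7]

  half := by (simp only [Cert, form, Matrix.cons_val, Matrix.cons_val_zero, Matrix.cons_val_one]; norm_num [sp, piHi, q6, q7, q17])

  rest := Or.inl ⟨39 / 40, by norm_num, by (simp only [Cert, form, Matrix.cons_val, Matrix.cons_val_zero, Matrix.cons_val_one]; norm_num [sp, piHi, q6, q7, q17]), by (simp only [Cert, form, Matrix.cons_val, Matrix.cons_val_zero, Matrix.cons_val_one]; norm_num [sp, piHi, q6, q7, q17])⟩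

def q18 : Corner := ⟨1 / 4, 3 / 5, 1 / 2, 79 / 125⟩

theorem v18 : q18.Valid := by constructor <;> norm_num [q18, mh, min_def]

theorem c18 : 199 / 500 ≤ q18.C := trap_le_C v18 (r₀ := 0)
  (l := [(1 / 30, 83 / 500), (1 / 8, 303 / 1000), (1 / 4, 397 / 1000), (3 / 8, 57 / 125), (1 / 2, 62 / 125), (5 / 8, 21 / 40), (5 / 7, 541 / 1000), (3 / 4, 513 / 1000), (7 / 8, 191 / 500), (29 / 30, 207 / 1000), (1, 37 / 1000)])
  (by norm_num [q18, mh, min_def, Corner.seg])
  (by norm_num [Nodes, q18, mh, min_def, Corner.seg]) (by norm_num [trap])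

theorem t17 : Tri ![q18, q7, q17] ![199 / 500, 4983 / 10000, 1323 / 10000] where

  valid i := by fin_cases i <;> simp [v18, v7, v17]

  hC i := by fin_cases i <;> simp [c18, c7, c17]

  half := by (simp only [Cert, form, Matrix.cons_val, Matrix.cons_val_zero, Matrix.cons_val_one]; norm_num [sp, piHi, q7, q17, q18])

  rest := Or.inl ⟨1, by norm_num, by (simp only [Cert, form, Matrix.cons_val, Matrix.cons_val_zero, Matrix.cons_val_one]; norm_num [sp, piHi, q7, q17, q18]), by (simp only [Cert, form, Matrix.cons_val, Matrix.cons_val_zero, Matrix.cons_val_one]; norm_num [sp, piHi, q7, q17, q18])⟩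

def q19 : Corner := ⟨1 / 9, 3 / 4, 333 / 1000, 1 / 2⟩

theorem v19 : q19.Valid := by constructor <;> norm_num [q19, mh, min_def]

theorem c19 : 3139 / 5000 ≤ q19.C := trap_le_C v19 (r₀ := 11 / 250)
  (l := [(1 / 30, 183 / 500), (1 / 8, 293 / 500), (1 / 4, 693 / 1000), (3 / 8, 93 / 125), (1 / 2, 193 / 250), (14 / 23, 197 / 250), (5 / 8, 39 / 50), (3 / 4, 349 / 500), (7 / 8, 551 / 1000), (29 / 30, 157 / 500), (1, 0)])
  (by norm_num [q19, mh, min_def, Corner.seg])
  (by norm_num [Nodes, q19, mh, min_def, Corner.seg]) (by norm_num [trap])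

theorem t18 : Tri ![q7, q18, q19] ![4983 / 10000, 199 / 500, 3139 / 5000] where

  valid i := by fin_cases i <;> simp [v7, v18, v19]

  hC i := by fin_cases i <;> simp [c7, c18, c19]

  half := by (simp only [Cert, form, Matrix.cons_val, Matrix.cons_val_zero, Matrix.cons_val_one]; norm_num [sp, piHi, q7, q18, q19])

  rest := Or.inl ⟨1, by norm_num, by (simp only [Cert, form, Matrix.cons_val, Matrix.cons_val_zero, Matrix.cons_val_one]; norm_num [sp, piHi, q7, q18, q19]), by (simp only [Cert, form, Matrix.cons_val, Matrix.cons_val_zero, Matrix.cons_val_one]; norm_num [sp, piHi, q7, q18, q19])⟩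

def q20 : Corner := ⟨1 / 4, 3 / 4, 1 / 2, 1 / 2⟩

theorem v20 : q20.Valid := by constructor <;> norm_num [q20, mh, min_def]

theorem c20 : 2621 / 5000 ≤ q20.C := trap_le_C v20 (r₀ := 0)
  (l := [(1 / 30, 1 / 4), (1 / 8, 447 / 1000), (1 / 4, 577 / 1000), (3 / 8, 327 / 500), (1 / 2, 707 / 1000), (5 / 8, 327 / 500), (3 / 4, 577 / 1000), (7 / 8, 447 / 1000), (29 / 30, 1 / 4), (1, 0)])
  (by norm_num [q20, mh, min_def, Corner.seg])
  (by norm_num [Nodes, q20, mh, min_def, Corner.seg]) (by norm_num [trap])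

theorem t19 : Tri ![q20, q19, q18] ![2621 / 5000, 3139 / 5000, 199 / 500] where

  valid i := by fin_cases i <;> simp [v20, v19, v18]

  hC i := by fin_cases i <;> simp [c20, c19, c18]

  half := by (simp only [Cert, form, Matrix.cons_val, Matrix.cons_val_zero, Matrix.cons_val_one]; norm_num [sp, piHi, q18, q19, q20])

  rest := Or.inl ⟨1, by norm_num, by (simp only [Cert, form, Matrix.cons_val, Matrix.cons_val_zero, Matrix.cons_val_one]; norm_num [sp, piHi, q18, q19, q20]), by (simp only [Cert, form, Matrix.cons_val, Matrix.cons_val_zero, Matrix.cons_val_one]; norm_num [sp, piHi, q18, q19, q20])⟩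

def q21 : Corner := ⟨8 / 25, 3 / 4, 113 / 200, 1 / 2⟩

theorem v21 : q21.Valid := by constructor <;> norm_num [q21, mh, min_def]

theorem c21 : 951 / 2000 ≤ q21.C := trap_le_C v21 (r₀ := 49 / 1000)
  (l := [(1 / 30, 229 / 1000), (1 / 8, 103 / 250), (1 / 4, 543 / 1000), (3 / 8, 313 / 500), (18 / 43, 649 / 1000), (1 / 2, 78 / 125), (5 / 8, 23 / 40), (3 / 4, 63 / 125), (7 / 8, 387 / 1000), (29 / 30, 107 / 500), (1, 0)])
  (by norm_num [q21, mh, min_def, Corner.seg])
  (by norm_num [Nodes, q21, mh, min_def, Corner.seg]) (by norm_num [trap])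

theorem t20 : Tri ![q19, q21, q16] ![3139 / 5000, 951 / 2000, 451 / 500] where

  valid i := by fin_cases i <;> simp [v19, v21, v16]

  hC i := by fin_cases i <;> simp [c19, c21, c16]

  half := by (simp only [Cert, form, Matrix.cons_val, Matrix.cons_val_zero, Matrix.cons_val_one]; norm_num [sp, piHi, q16, q19, q21])

  rest := Or.inl ⟨1, by norm_num, by (simp only [Cert, form, Matrix.cons_val, Matrix.cons_val_zero, Matrix.cons_val_one]; norm_num [sp, piHi, q16, q19, q21]), by (simp only [Cert, form, Matrix.cons_val, Matrix.cons_val_zero, Matrix.cons_val_one]; norm_num [sp, piHi, q16, q19, q21])⟩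

def q22 : Corner := ⟨8 / 25, 1, 113 / 200, 0⟩

theorem v22 : q22.Valid := by constructor <;> norm_num [q22, mh, min_def]

theorem c22 : 41 / 50 ≤ q22.C := trap_le_C v22 (r₀ := 49 / 1000)
  (l := [(1 / 30, 359 / 1000), (1 / 8, 629 / 1000), (1 / 4, 159 / 200), (9 / 34, 809 / 1000), (3 / 8, 21 / 25), (1 / 2, 437 / 500), (5 / 8, 907 / 1000), (3 / 4, 939 / 1000), (7 / 8, 97 / 100), (29 / 30, 124 / 125), (1, 1)])
  (by norm_num [q22, mh, min_def, Corner.seg])
  (by norm_num [Nodes, q22, mh, min_def, Corner.seg]) (by norm_num [trap])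

theorem t21 : Tri ![q22, q16, q21] ![41 / 50, 451 / 500, 951 / 2000] where

  valid i := by fin_cases i <;> simp [v22, v16, v21]

  hC i := by fin_cases i <;> simp [c22, c16, c21]

  half := by (simp only [Cert, form, Matrix.cons_val, Matrix.cons_val_zero, Matrix.cons_val_one]; norm_num [sp, piHi, q16, q21, q22])

  rest := Or.inl ⟨3 / 4, by norm_num, by (simp only [Cert, form, Matrix.cons_val, Matrix.cons_val_zero, Matrix.cons_val_one]; norm_num [sp, piHi, q16, q21, q22]), by (simp only [Cert, form, Matrix.cons_val, Matrix.cons_val_zero, Matrix.cons_val_one]; norm_num [sp, piHi, q16, q21, q22])⟩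

def q23 : Corner := ⟨8 / 25, 1 / 2, 113 / 200, 707 / 1000⟩

theorem v23 : q23.Valid := by constructor <;> norm_num [q23, mh, min_def]

theorem c23 : 93 / 1000 ≤ q23.C := trap_le_C v23 (r₀ := 49 / 1000)
  (l := [(1 / 30, 13 / 200), (1 / 8, 23 / 250), (1 / 4, 109 / 1000), (3 / 8, 29 / 250), (1 / 2, 23 / 200), (5 / 8, 27 / 250), (3 / 4, 47 / 500), (7 / 8, 71 / 1000), (29 / 30, 1 / 25), (1, 17 / 1000)])
  (by norm_num [q23, mh, min_def, Corner.seg])
  (by norm_num [Nodes, q23, mh, min_def, Corner.seg]) (by norm_num [trap])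

theorem t22 : Tri ![q17, q23, q20] ![1323 / 10000, 93 / 1000, 2621 / 5000] where

  valid i := by fin_cases i <;> simp [v17, v23, v20]

  hC i := by fin_cases i <;> simp [c17, c23, c20]

  half := by (simp only [Cert, form, Matrix.cons_val, Matrix.cons_val_zero, Matrix.cons_val_one]; norm_num [sp, piHi, q17, q20, q23])

  rest := Or.inl ⟨1, by norm_num, by (simp only [Cert, form, Matrix.cons_val, Matrix.cons_val_zero, Matrix.cons_val_one]; norm_num [sp, piHi, q17, q20, q23]), by (simp only [Cert, form, Matrix.cons_val, Matrix.cons_val_zero, Matrix.cons_val_one]; norm_num [sp, piHi, q17, q20, q23])⟩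

theorem t23 : Tri ![q21, q20, q23] ![951 / 2000, 2621 / 5000, 93 / 1000] where

  valid i := by fin_cases i <;> simp [v21, v20, v23]

  hC i := by fin_cases i <;> simp [c21, c20, c23]

  half := by (simp only [Cert, form, Matrix.cons_val, Matrix.cons_val_zero, Matrix.cons_val_one]; norm_num [sp, piHi, q20, q21, q23])

  rest := Or.inl ⟨1, by norm_num, by (simp only [Cert, form, Matrix.cons_val, Matrix.cons_val_zero, Matrix.cons_val_one]; norm_num [sp, piHi, q20, q21, q23]), by (simp only [Cert, form, Matrix.cons_val, Matrix.cons_val_zero, Matrix.cons_val_one]; norm_num [sp, piHi, q20, q21, q23])⟩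

def q24 : Corner := ⟨1 / 2, 1 / 2, 707 / 1000, 707 / 1000⟩

theorem v24 : q24.Valid := by constructor <;> norm_num [q24, mh, min_def]

theorem c24 : 0 ≤ q24.C := trap_le_C v24 (r₀ := 0)
  (l := [(1, 0)])
  (by norm_num [q24, mh, min_def, Corner.seg])
  (by norm_num [Nodes, q24, mh, min_def, Corner.seg]) (by norm_num [trap])

theorem t24 : Tri ![q23, q24, q21] ![93 / 1000, 0, 951 / 2000] where

  valid i := by fin_cases i <;> simp [v23, v24, v21]

  hC i := by fin_cases i <;> simp [c23, c24, c21]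

  half := by (simp only [Cert, form, Matrix.cons_val, Matrix.cons_val_zero, Matrix.cons_val_one]; norm_num [sp, piHi, q21, q23, q24])

  rest := Or.inr fun i => by fin_cases i <;> norm_num [sp, q21, q23, q24]

def q25 : Corner := ⟨1 / 2, 3 / 4, 707 / 1000, 1 / 2⟩

theorem v25 : q25.Valid := by constructor <;> norm_num [q25, mh, min_def]

theorem c25 : 1323 / 10000 ≤ q25.C := trap_le_C v25 (r₀ := 17 / 1000)
  (l := [(1 / 30, 11 / 200), (1 / 8, 101 / 1000), (1 / 4, 17 / 125), (3 / 8, 157 / 1000), (1 / 2, 169 / 1000), (5 / 8, 171 / 1000), (3 / 4, 4 / 25), (7 / 8, 129 / 1000), (29 / 30, 73 / 1000), (1, 0)])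
  (by norm_num [q25, mh, min_def, Corner.seg])
  (by norm_num [Nodes, q25, mh, min_def, Corner.seg]) (by norm_num [trap])

theorem t25 : Tri ![q25, q21, q24] ![1323 / 10000, 951 / 2000, 0] where

  valid i := by fin_cases i <;> simp [v25, v21, v24]

  hC i := by fin_cases i <;> simp [c25, c21, c24]

  half := by (simp only [Cert, form, Matrix.cons_val, Matrix.cons_val_zero, Matrix.cons_val_one]; norm_num [sp, piHi, q21, q24, q25])

  rest := Or.inr fun i => by fin_cases i <;> norm_num [sp, q21, q24, q25]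

theorem t26 : Tri ![q21, q25, q22] ![951 / 2000, 1323 / 10000, 41 / 50] where

  valid i := by fin_cases i <;> simp [v21, v25, v22]

  hC i := by fin_cases i <;> simp [c21, c25, c22]

  half := by (simp only [Cert, form, Matrix.cons_val, Matrix.cons_val_zero, Matrix.cons_val_one]; norm_num [sp, piHi, q21, q22, q25])

  rest := Or.inr fun i => by fin_cases i <;> norm_num [sp, q21, q22, q25]

def q26 : Corner := ⟨1 / 2, 1, 707 / 1000, 0⟩

theorem v26 : q26.Valid := by constructor <;> norm_num [q26, mh, min_def]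

theorem c26 : 6637 / 10000 ≤ q26.C := trap_le_C v26 (r₀ := 17 / 1000)
  (l := [(1 / 30, 183 / 1000), (1 / 8, 353 / 1000), (1 / 4, 1 / 2), (3 / 8, 153 / 250), (1 / 2, 707 / 1000), (5 / 8, 79 / 100), (3 / 4, 433 / 500), (7 / 8, 187 / 200), (29 / 30, 983 / 1000), (1, 1)])
  (by norm_num [q26, mh, min_def, Corner.seg])
  (by norm_num [Nodes, q26, mh, min_def, Corner.seg]) (by norm_num [trap])

theorem t27 : Tri ![q26, q22, q25] ![6637 / 10000, 41 / 50, 1323 / 10000] where

  valid i := by fin_cases i <;> simp [v26, v22, v25]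

  hC i := by fin_cases i <;> simp [c26, c22, c25]

  half := by (simp only [Cert, form, Matrix.cons_val, Matrix.cons_val_zero, Matrix.cons_val_one]; norm_num [sp, piHi, q22, q25, q26])

  rest := Or.inr fun i => by fin_cases i <;> norm_num [sp, q22, q25, q26]

theorem box0 {A : ℝ → ℝ} {p a b : ℝ} (h : Setting A p a b)
    (ha : a ∈ Set.Icc (0 : ℝ) (1 / 36)) (hb : b ∈ Set.Icc (1 / 2 : ℝ) (21 / 40)) :
    jrel (∫ z in (0 : ℝ)..1, A z) ≤ p :=
  h.box ha hb (by norm_num) (by norm_num) t0 t1 (by simp [q0, q1, q2]) (by simp [q0, q1, q2])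
    (by simp [q1, q2, q3]) (by simp [q1, q2, q3])

theorem box1 {A : ℝ → ℝ} {p a b : ℝ} (h : Setting A p a b)
    (ha : a ∈ Set.Icc (0 : ℝ) (1 / 36)) (hb : b ∈ Set.Icc (21 / 40 : ℝ) (3 / 5)) :
    jrel (∫ z in (0 : ℝ)..1, A z) ≤ p :=
  h.box ha hb (by norm_num) (by norm_num) t2 t3 (by simp [q2, q3, q4]) (by simp [q2, q3, q4])
    (by simp [q3, q4, q5]) (by simp [q3, q4, q5])

theorem box2 {A : ℝ → ℝ} {p a b : ℝ} (h : Setting A p a b)
    (ha : a ∈ Set.Icc (1 / 36 : ℝ) (1 / 9)) (hb : b ∈ Set.Icc (1 / 2 : ℝ) (3 / 5)) :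
    jrel (∫ z in (0 : ℝ)..1, A z) ≤ p :=
  h.box ha hb (by norm_num) (by norm_num) t4 t5 (by simp [q1, q5, q6]) (by simp [q1, q5, q6])
    (by simp [q5, q6, q7]) (by simp [q5, q6, q7])

theorem box3 {A : ℝ → ℝ} {p a b : ℝ} (h : Setting A p a b)
    (ha : a ∈ Set.Icc (0 : ℝ) (1 / 36)) (hb : b ∈ Set.Icc (3 / 5 : ℝ) (29 / 40)) :
    jrel (∫ z in (0 : ℝ)..1, A z) ≤ p :=
  h.box ha hb (by norm_num) (by norm_num) t6 t7 (by simp [q4, q5, q8]) (by simp [q4, q5, q8])
    (by simp [q5, q8, q9]) (by simp [q5, q8, q9])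

theorem box4 {A : ℝ → ℝ} {p a b : ℝ} (h : Setting A p a b)
    (ha : a ∈ Set.Icc (1 / 36 : ℝ) (1 / 9)) (hb : b ∈ Set.Icc (3 / 5 : ℝ) (29 / 40)) :
    jrel (∫ z in (0 : ℝ)..1, A z) ≤ p :=
  h.box ha hb (by norm_num) (by norm_num) t8 t9 (by simp [q5, q7, q9]) (by simp [q5, q7, q9])
    (by simp [q7, q9, q10]) (by simp [q7, q9, q10])

theorem box5 {A : ℝ → ℝ} {p a b : ℝ} (h : Setting A p a b)
    (ha : a ∈ Set.Icc (0 : ℝ) (1 / 9)) (hb : b ∈ Set.Icc (29 / 40 : ℝ) (33 / 40)) :
    jrel (∫ z in (0 : ℝ)..1, A z) ≤ p :=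
  h.box ha hb (by norm_num) (by norm_num) t10 t11 (by simp [q8, q10, q11]) (by simp [q8, q10, q11])
    (by simp [q10, q11, q12]) (by simp [q10, q11, q12])

theorem box6 {A : ℝ → ℝ} {p a b : ℝ} (h : Setting A p a b)
    (ha : a ∈ Set.Icc (0 : ℝ) (1 / 9)) (hb : b ∈ Set.Icc (33 / 40 : ℝ) (37 / 40)) :
    jrel (∫ z in (0 : ℝ)..1, A z) ≤ p :=
  h.box ha hb (by norm_num) (by norm_num) t12 t13 (by simp [q11, q12, q13]) (by simp [q11, q12, q13])
    (by simp [q12, q13, q14]) (by simp [q12, q13, q14])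

theorem box7 {A : ℝ → ℝ} {p a b : ℝ} (h : Setting A p a b)
    (ha : a ∈ Set.Icc (0 : ℝ) (1 / 9)) (hb : b ∈ Set.Icc (37 / 40 : ℝ) (1)) :
    jrel (∫ z in (0 : ℝ)..1, A z) ≤ p :=
  h.box ha hb (by norm_num) (by norm_num) t14 t15 (by simp [q13, q14, q15]) (by simp [q13, q14, q15])
    (by simp [q14, q15, q16]) (by simp [q14, q15, q16])

theorem box8 {A : ℝ → ℝ} {p a b : ℝ} (h : Setting A p a b)
    (ha : a ∈ Set.Icc (1 / 9 : ℝ) (1 / 4)) (hb : b ∈ Set.Icc (1 / 2 : ℝ) (3 / 5)) :
    jrel (∫ z in (0 : ℝ)..1, A z) ≤ p :=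
  h.box ha hb (by norm_num) (by norm_num) t16 t17 (by simp [q6, q7, q17]) (by simp [q6, q7, q17])
    (by simp [q7, q17, q18]) (by simp [q7, q17, q18])

theorem box9 {A : ℝ → ℝ} {p a b : ℝ} (h : Setting A p a b)
    (ha : a ∈ Set.Icc (1 / 9 : ℝ) (1 / 4)) (hb : b ∈ Set.Icc (3 / 5 : ℝ) (3 / 4)) :
    jrel (∫ z in (0 : ℝ)..1, A z) ≤ p :=
  h.box ha hb (by norm_num) (by norm_num) t18 t19 (by simp [q7, q18, q19]) (by simp [q7, q18, q19])
    (by simp [q18, q19, q20]) (by simp [q18, q19, q20])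

theorem box10 {A : ℝ → ℝ} {p a b : ℝ} (h : Setting A p a b)
    (ha : a ∈ Set.Icc (1 / 9 : ℝ) (8 / 25)) (hb : b ∈ Set.Icc (3 / 4 : ℝ) (1)) :
    jrel (∫ z in (0 : ℝ)..1, A z) ≤ p :=
  h.box ha hb (by norm_num) (by norm_num) t20 t21 (by simp [q16, q19, q21]) (by simp [q16, q19, q21])
    (by simp [q16, q21, q22]) (by simp [q16, q21, q22])

theorem box11 {A : ℝ → ℝ} {p a b : ℝ} (h : Setting A p a b)
    (ha : a ∈ Set.Icc (1 / 4 : ℝ) (8 / 25)) (hb : b ∈ Set.Icc (1 / 2 : ℝ) (3 / 4)) :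
    jrel (∫ z in (0 : ℝ)..1, A z) ≤ p :=
  h.box ha hb (by norm_num) (by norm_num) t22 t23 (by simp [q17, q20, q23]) (by simp [q17, q20, q23])
    (by simp [q20, q21, q23]) (by simp [q20, q21, q23])

theorem box12 {A : ℝ → ℝ} {p a b : ℝ} (h : Setting A p a b)
    (ha : a ∈ Set.Icc (8 / 25 : ℝ) (1 / 2)) (hb : b ∈ Set.Icc (1 / 2 : ℝ) (3 / 4)) :
    jrel (∫ z in (0 : ℝ)..1, A z) ≤ p :=
  h.box ha hb (by norm_num) (by norm_num) t24 t25 (by simp [q21, q23, q24]) (by simp [q21, q23, q24])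
    (by simp [q21, q24, q25]) (by simp [q21, q24, q25])

theorem box13 {A : ℝ → ℝ} {p a b : ℝ} (h : Setting A p a b)
    (ha : a ∈ Set.Icc (8 / 25 : ℝ) (1 / 2)) (hb : b ∈ Set.Icc (3 / 4 : ℝ) (1)) :
    jrel (∫ z in (0 : ℝ)..1, A z) ≤ p :=
  h.box ha hb (by norm_num) (by norm_num) t26 t27 (by simp [q21, q22, q25]) (by simp [q21, q22, q25])
    (by simp [q22, q25, q26]) (by simp [q22, q25, q26])

end Vale.Agent.P232.BandFree.Data
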