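import Vale.Agent.P232.BandFree.Low

/-!
# P232: band-free slices reaching area above one half

`√(1 - G²/min(A,1-A))` is jointly concave, so the chord calibration of a range `[a,b]` is bounded
below by interpolation from the corners of a triangle of ranges; what remains is the
nonnegativity of Bernstein coefficients of cubic forms at rational corners.
-/

open MeasureTheory Set intervalIntegral
open scoped Real

noncomputable section

namespace Vale.Agent.P232.BandFree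

/-- Points at which `H` is concave. -/
def dom : Set (ℝ × ℝ) := {q | q.1 ∈ Icc (0 : ℝ) 1 ∧ q.2 ^ 2 ≤ mh q.1}

theorem mh_concave {x y l k : ℝ} (hl : 0 ≤ l) (hk : 0 ≤ k) (hlk : l + k = 1) :
    l * mh x + k * mh y ≤ mh (l * x + k * y) := by
  refine le_min ?_ ?_
  · gcongr <;> exact min_le_left _ _
  · calc l * mh x + k * mh y ≤ l * (1 - x) + k * (1 - y) := by gcongr <;> exact min_le_right _ _
      _ = _ := by linear_combination hlk

theorem convex_dom : Convex ℝ dom := by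
  rintro ⟨x, G⟩ ⟨hx, hG⟩ ⟨y, K⟩ ⟨hy, hK⟩ l k hl hk hlk
  refine ⟨convex_Icc (0 : ℝ) 1 hx hy hl hk hlk, ?_⟩
  simp only [Prod.smul_fst, Prod.smul_snd, Prod.fst_add, Prod.snd_add, smul_eq_mul] at hG hK ⊢
  refine le_trans ?_ (mh_concave hl hk hlk)
  calc (l * G + k * K) ^ 2 = l * G ^ 2 + k * K ^ 2 - l * k * (G - K) ^ 2 := by
        linear_combination (l * G ^ 2 + k * K ^ 2) * hlk
    _ ≤ l * G ^ 2 + k * K ^ 2 := sub_le_self _ (by positivity)
    _ ≤ _ := by gcongr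

theorem concaveOn_H : ConcaveOn ℝ dom fun q => H q.1 q.2 := by
  refine ⟨convex_dom, ?_⟩
  rintro ⟨x, G⟩ hx ⟨y, K⟩ hy l k hl hk hlk
  have hc := convex_dom hx hy hl hk hlk
  simp only [Prod.smul_fst, Prod.smul_snd, Prod.fst_add, Prod.snd_add, smul_eq_mul] at hc ⊢
  have hmx : 0 ≤ mh x := mh_nonneg hx.1
  have hmy : 0 ≤ mh y := mh_nonneg hy.1
  have hG : G ^ 2 ≤ mh x := hx.2
  have hK : K ^ 2 ≤ mh y := hy.2
  set P := G ^ 2 / mh x with hP
  set Q := K ^ 2 / mh y with hQ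
  have hP0 : 0 ≤ P := by positivity
  have hQ0 : 0 ≤ Q := by positivity
  have hP1 : P ≤ 1 := div_le_one_of_le₀ hG hmx
  have hQ1 : Q ≤ 1 := div_le_one_of_le₀ hK hmy
  have eP : G ^ 2 = P * mh x := by
    rcases hmx.eq_or_lt with h | h
    · rw [← h] at hG ⊢; linarith [sq_nonneg G]
    · rw [hP, div_mul_cancel₀ _ h.ne']
  have eQ : K ^ 2 = Q * mh y := by
    rcases hmy.eq_or_lt with h | h
    · rw [← h] at hK ⊢; linarith [sq_nonneg K]
    · rw [hQ, div_mul_cancel₀ _ h.ne']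
  have hcross : 2 * (G * K) ≤ P * mh y + Q * mh x := by
    have : (G * K) ^ 2 = (P * mh y) * (Q * mh x) := by rw [mul_pow, eP, eQ]; ring
    exact (le_abs_self _).trans (abs_le_of_sq_le_sq (by nlinarith [sq_nonneg (P * mh y - Q * mh x)])
      (by positivity))
  have hmain : (l * G + k * K) ^ 2 ≤ (l * P + k * Q) * (l * mh x + k * mh y) := by
    have := mul_le_mul_of_nonneg_left hcross (mul_nonneg hl hk)
    have e : (l * G + k * K) ^ 2 = l * l * G ^ 2 + k * k * K ^ 2 + l * k * (2 * (G * K)) := by ring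
    rw [e, eP, eQ]
    linarith
  have hm := mh_concave (x := x) (y := y) hl hk hlk
  have hq : (l * G + k * K) ^ 2 / mh (l * x + k * y) ≤ l * P + k * Q :=
    div_le_of_le_mul₀ (mh_nonneg hc.1) (by positivity)
      (hmain.trans (mul_le_mul_of_nonneg_left hm (by positivity)))
  refine le_trans ?_ (Real.sqrt_le_sqrt (sub_le_sub_left hq 1))
  apply Real.le_sqrt_of_sq_le
  calc (l * H x G + k * H y K) ^ 2 =
        l * H x G ^ 2 + k * H y K ^ 2 - l * k * (H x G - H y K) ^ 2 := by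
        linear_combination (l * H x G ^ 2 + k * H y K ^ 2) * hlk
    _ ≤ l * H x G ^ 2 + k * H y K ^ 2 := sub_le_self _ (by positivity)
    _ = _ := by
      rw [H, H, Real.sq_sqrt (sub_nonneg.2 hP1), Real.sq_sqrt (sub_nonneg.2 hQ1)]
      linear_combination hlk

/-- A range `[a, b]` with values of the calibration at its ends (over `√π`). -/
structure Corner where
  a : ℝ
  b : ℝ
  α : ℝ
  β : ℝ

/-- Admissible corners. -/
structure Corner.Valid (Q : Corner) : Prop where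
  a0 : 0 ≤ Q.a
  ab : Q.a ≤ Q.b
  b1 : Q.b ≤ 1
  α0 : 0 ≤ Q.α
  β0 : 0 ≤ Q.β
  αm : Q.α ^ 2 ≤ mh Q.a
  βm : Q.β ^ 2 ≤ mh Q.b

/-- The point at parameter `t` of the chord. -/
def Corner.seg (Q : Corner) (t : ℝ) : ℝ × ℝ :=
  (Q.a + t * (Q.b - Q.a), Q.α + t * (Q.β - Q.α))

/-- Mean of `H` along the chord. -/
def Corner.C (Q : Corner) : ℝ := ∫ t in (0 : ℝ)..1, H (Q.seg t).1 (Q.seg t).2

theorem Corner.seg_eq (Q : Corner) (t : ℝ) :
    Q.seg t = (1 - t) • (Q.a, Q.α) + t • (Q.b, Q.β) := by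
  ext <;> simp [Corner.seg] <;> ring

theorem Corner.Valid.mem {Q : Corner} (h : Q.Valid) {t : ℝ} (ht : t ∈ Icc (0 : ℝ) 1) :
    Q.seg t ∈ dom := by
  rw [Q.seg_eq]
  exact convex_dom ⟨⟨h.a0, h.ab.trans h.b1⟩, h.αm⟩ ⟨⟨h.a0.trans h.ab, h.b1⟩, h.βm⟩
    (by linarith [ht.2]) ht.1 (by ring)

theorem Corner.Valid.integrable {Q : Corner} (h : Q.Valid) {l r : ℝ} (hl : 0 ≤ l) (hlr : l ≤ r)
    (hr : r ≤ 1) : IntervalIntegrable (fun t => H (Q.seg t).1 (Q.seg t).2) volume l r := by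
  rw [intervalIntegrable_iff_integrableOn_Ioo_of_le hlr]
  have hmeas : Measurable fun t => H (Q.seg t).1 (Q.seg t).2 := by
    unfold H mh Corner.seg; fun_prop
  refine IntegrableOn.of_bound measure_Ioo_lt_top hmeas.aestronglyMeasurable 1
    ((ae_restrict_iff' measurableSet_Ioo).2 (Filter.Eventually.of_forall fun t ht => ?_))
  rw [Real.norm_of_nonneg (H_nonneg _ _)]
  exact H_le_one _ (mh_nonneg (h.mem ⟨hl.trans ht.1.le, ht.2.le.trans hr⟩).1)

/-- Rational nodes below the chord profile. -/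
def Nodes (Q : Corner) : ℝ → List (ℝ × ℝ) → Prop
  | t₀, [] => t₀ = 1
  | t₀, (t, r) :: l => t₀ < t ∧ r ^ 2 ≤ 1 - (Q.seg t).2 ^ 2 / mh (Q.seg t).1 ∧ Nodes Q t l

/-- Trapezoidal sum over the nodes. -/
def trap : ℝ → ℝ → List (ℝ × ℝ) → ℝ
  | _, _, [] => 0
  | t₀, r₀, (t, r) :: l => (t - t₀) * (r₀ + r) / 2 + trap t r l

theorem Nodes.le_one {Q : Corner} : ∀ {l : List (ℝ × ℝ)} {t₀ : ℝ}, Nodes Q t₀ l → t₀ ≤ 1
  | [], _, h => le_of_eq h
  | (_, _) :: _, _, h => h.1.le.trans h.2.2.le_one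

theorem le_H {Q : Corner} {t r : ℝ} (h : r ^ 2 ≤ 1 - (Q.seg t).2 ^ 2 / mh (Q.seg t).1) :
    r ≤ H (Q.seg t).1 (Q.seg t).2 :=
  (le_abs_self r).trans ((Real.sqrt_sq_eq_abs r).symm.trans_le (Real.sqrt_le_sqrt h))

theorem trap_le {Q : Corner} (hQ : Q.Valid) : ∀ (l : List (ℝ × ℝ)) (t₀ r₀ : ℝ), 0 ≤ t₀ →
    r₀ ^ 2 ≤ 1 - (Q.seg t₀).2 ^ 2 / mh (Q.seg t₀).1 → Nodes Q t₀ l →
      trap t₀ r₀ l ≤ ∫ t in t₀..1, H (Q.seg t).1 (Q.seg t).2
  | [], t₀, r₀, _, _, h => by simp [trap, show t₀ = 1 from h]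
  | (t, r) :: l, t₀, r₀, h0, hr₀, ⟨hlt, hr, hn⟩ => by
    have ht0 : 0 ≤ t := h0.trans hlt.le
    have ht1 : t ≤ 1 := hn.le_one
    rw [trap, ← integral_add_adjacent_intervals (hQ.integrable h0 hlt.le ht1)
      (hQ.integrable ht0 ht1 le_rfl)]
    refine add_le_add ?_ (trap_le hQ l t r ht0 hr hn)
    set s := (r - r₀) / (t - t₀)
    have hd : 0 < t - t₀ := sub_pos.2 hlt
    have e : ∫ x in t₀..t, (r₀ - s * t₀ + s * x) = (t - t₀) * (r₀ + r) / 2 := by
      rw [intervalIntegral.integral_add intervalIntegrable_const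
        ((by fun_prop : Continuous fun x : ℝ => s * x).intervalIntegrable _ _),
        intervalIntegral.integral_const_mul, intervalIntegral.integral_const, integral_id]
      simp only [s, smul_eq_mul]
      field_simp
      ring
    rw [← e]
    refine integral_mono_on hlt.le ((by fun_prop : Continuous fun x : ℝ =>
      r₀ - s * t₀ + s * x).intervalIntegrable _ _) (hQ.integrable h0 hlt.le ht1) fun x hx => ?_
    set k := (x - t₀) / (t - t₀)
    have hk : 0 ≤ k := div_nonneg (by linarith [hx.1]) hd.le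
    have hk1 : k ≤ 1 := (div_le_one hd).2 (by linarith [hx.2])
    have hxk : Q.seg x = (1 - k) • Q.seg t₀ + k • Q.seg t := by
      have : x = (1 - k) * t₀ + k * t := by simp only [k]; field_simp; ring
      ext <;> simp [Corner.seg] <;> rw [this] <;> ring
    have hc := concaveOn_H.2 (hQ.mem ⟨h0, hlt.le.trans ht1⟩) (hQ.mem ⟨ht0, ht1⟩)
      (sub_nonneg.2 hk1) hk (by ring : 1 - k + k = 1)
    rw [← hxk] at hc
    refine le_trans ?_ hc
    have e2 : r₀ - s * t₀ + s * x = (1 - k) * r₀ + k * r := by simp only [s, k]; field_simp; ring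
    rw [e2]
    exact add_le_add (mul_le_mul_of_nonneg_left (le_H hr₀) (sub_nonneg.2 hk1))
      (mul_le_mul_of_nonneg_left (le_H hr) hk)

/-- A certified lower bound for `Q.C`. -/
theorem trap_le_C {Q : Corner} {c r₀ : ℝ} {l : List (ℝ × ℝ)} (hQ : Q.Valid)
    (hr₀ : r₀ ^ 2 ≤ 1 - (Q.seg 0).2 ^ 2 / mh (Q.seg 0).1) (hn : Nodes Q 0 l)
    (hc : c ≤ trap 0 r₀ l) : c ≤ Q.C :=
  hc.trans (trap_le hQ l 0 r₀ le_rfl hr₀ hn)

/-- A cubic form with nonnegative Bernstein coefficients. -/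
theorem cubic_nonneg (K : Fin 3 → Fin 3 → Fin 3 → ℝ) (l : Fin 3 → ℝ) (hl : ∀ i, 0 ≤ l i)
    (h000 : 0 ≤ K 0 0 0) (h111 : 0 ≤ K 1 1 1) (h222 : 0 ≤ K 2 2 2)
    (h001 : 0 ≤ K 0 0 1 + K 0 1 0 + K 1 0 0) (h002 : 0 ≤ K 0 0 2 + K 0 2 0 + K 2 0 0)
    (h110 : 0 ≤ K 1 1 0 + K 1 0 1 + K 0 1 1) (h112 : 0 ≤ K 1 1 2 + K 1 2 1 + K 2 1 1)
    (h220 : 0 ≤ K 2 2 0 + K 2 0 2 + K 0 2 2) (h221 : 0 ≤ K 2 2 1 + K 2 1 2 + K 1 2 2)
    (h012 : 0 ≤ K 0 1 2 + K 0 2 1 + K 1 0 2 + K 1 2 0 + K 2 0 1 + K 2 1 0) :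
    0 ≤ ∑ i, ∑ j, ∑ k, l i * l j * l k * K i j k := by
  have e : ∑ i, ∑ j, ∑ k, l i * l j * l k * K i j k =
      l 0 ^ 3 * K 0 0 0 + l 1 ^ 3 * K 1 1 1 + l 2 ^ 3 * K 2 2 2 +
      l 0 ^ 2 * l 1 * (K 0 0 1 + K 0 1 0 + K 1 0 0) +
      l 0 ^ 2 * l 2 * (K 0 0 2 + K 0 2 0 + K 2 0 0) +
      l 1 ^ 2 * l 0 * (K 1 1 0 + K 1 0 1 + K 0 1 1) +
      l 1 ^ 2 * l 2 * (K 1 1 2 + K 1 2 1 + K 2 1 1) +
      l 2 ^ 2 * l 0 * (K 2 2 0 + K 2 0 2 + K 0 2 2) +
      l 2 ^ 2 * l 1 * (K 2 2 1 + K 2 1 2 + K 1 2 2) +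
      l 0 * l 1 * l 2 * (K 0 1 2 + K 0 2 1 + K 1 0 2 + K 1 2 0 + K 2 0 1 + K 2 1 0) := by
    simp only [Fin.sum_univ_three]; ring
  rw [e]
  have := hl 0; have := hl 1; have := hl 2
  positivity

/-- Lower bound for `√π`. -/
def sp : ℝ := 17724 / 10000

/-- Upper bound for `π`. -/
def piHi : ℝ := 31416 / 10000

theorem sp_le : sp ≤ Real.sqrt π :=
  Real.le_sqrt_of_sq_le (by unfold sp; nlinarith [Real.pi_gt_d4])

/-- The trilinear form of `ℓ(V) - κ (b - a)`. -/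
def form (Q : Fin 3 → Corner) (C : Fin 3 → ℝ) (V κ : ℝ) (i j k : Fin 3) : ℝ :=
  sp * ((Q i).α * ((Q j).b - V) + (Q i).β * (V - (Q j).a)) +
    ((Q i).b - (Q i).a) * ((Q j).b - (Q j).a) * C k - κ * ((Q i).b - (Q i).a)

/-- All Bernstein coefficients of `form` are nonnegative. -/
def Cert (Q : Fin 3 → Corner) (C : Fin 3 → ℝ) (V κ : ℝ) : Prop :=
  let K := form Q C V κ
  0 ≤ K 0 0 0 ∧ 0 ≤ K 1 1 1 ∧ 0 ≤ K 2 2 2 ∧
    0 ≤ K 0 0 1 + K 0 1 0 + K 1 0 0 ∧ 0 ≤ K 0 0 2 + K 0 2 0 + K 2 0 0 ∧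
    0 ≤ K 1 1 0 + K 1 0 1 + K 0 1 1 ∧ 0 ≤ K 1 1 2 + K 1 2 1 + K 2 1 1 ∧
    0 ≤ K 2 2 0 + K 2 0 2 + K 0 2 2 ∧ 0 ≤ K 2 2 1 + K 2 1 2 + K 1 2 2 ∧
    0 ≤ K 0 1 2 + K 0 2 1 + K 1 0 2 + K 1 2 0 + K 2 0 1 + K 2 1 0

/-- A triangle of ranges for which the bound is certified. -/
structure Tri (Q : Fin 3 → Corner) (C : Fin 3 → ℝ) : Prop where
  valid : ∀ i, (Q i).Valid
  hC : ∀ i, C i ≤ (Q i).C
  half : Cert Q C (1 / 2) 1
  rest : (∃ θ : ℝ, 0 < θ ∧ Cert Q C 0 (θ / 2) ∧ Cert Q C (1 / piHi) ((θ + 1 / θ) / 2)) ∨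
    ∀ i, 1 ≤ sp * (Q i).α ∧ 0 ≤ C i

/-- The data of a band-free slicing. -/
structure Setting (A : ℝ → ℝ) (p a b : ℝ) : Prop where
  hs : Slicing A p
  range : ∀ z ∈ Ioo (0 : ℝ) 1, A z ∈ Icc a b
  lo : ∀ δ : ℝ, 0 < δ → ∃ z ∈ Ioo (0 : ℝ) 1, A z < a + δ
  hi : ∀ δ : ℝ, 0 < δ → ∃ z ∈ Ioo (0 : ℝ) 1, b - δ < A z
  a0 : 0 ≤ a
  b1 : b ≤ 1
  aV : a ≤ ∫ z in (0 : ℝ)..1, A z
  Vhalf : ∫ z in (0 : ℝ)..1, A z ≤ 1 / 2
  hb : 1 / 2 ≤ b
  ab : a < b

theorem Tri.jrel_le {A : ℝ → ℝ} {p a b : ℝ} (h : Setting A p a b) {Q : Fin 3 → Corner}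
    {C : Fin 3 → ℝ} (T : Tri Q C) (l : Fin 3 → ℝ) (hl : ∀ i, 0 ≤ l i) (hl1 : ∑ i, l i = 1)
    (ea : ∑ i, l i * (Q i).a = a) (eb : ∑ i, l i * (Q i).b = b) :
    jrel (∫ z in (0 : ℝ)..1, A z) ≤ p := by
  set V := ∫ z in (0 : ℝ)..1, A z
  set α := ∑ i, l i * (Q i).α
  set β := ∑ i, l i * (Q i).β
  set Cc := ∑ i, l i * C i
  set d := b - a
  have hd : 0 < d := sub_pos.2 h.ab
  set M : Corner := ⟨a, b, α, β⟩
  have hseg : ∀ t, M.seg t = ∑ i, l i • (Q i).seg t := fun t => by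
    ext
    · simp [Corner.seg, M, ← ea, ← eb, Fin.sum_univ_three]; ring
    · simp [Corner.seg, M, α, β, Fin.sum_univ_three]; ring
  have hmem : ∀ t ∈ Icc (0 : ℝ) 1, M.seg t ∈ dom := fun t ht => by
    rw [hseg]
    exact convex_dom.sum_mem (fun i _ => hl i) hl1 fun i _ => (T.valid i).mem ht
  have hα : 0 ≤ α := Finset.sum_nonneg fun i _ => mul_nonneg (hl i) (T.valid i).α0
  have hβ : 0 ≤ β := Finset.sum_nonneg fun i _ => mul_nonneg (hl i) (T.valid i).β0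
  set u := α - a * ((β - α) / d)
  set v := (β - α) / d
  have hline : ∀ t, (M.seg t).1 = a + d * t ∧ (M.seg t).2 = u + v * (a + d * t) := fun t =>
    ⟨by simp [Corner.seg, M, d]; ring, by simp [Corner.seg, M, u, v]; field_simp; ring⟩
  have hG : ∀ x ∈ Icc a b, 0 ≤ u + v * x ∧ (u + v * x) ^ 2 ≤ mh x := by
    intro x hx
    set t := (x - a) / d
    have ht : t ∈ Icc (0 : ℝ) 1 :=
      ⟨div_nonneg (by linarith [hx.1]) hd.le, (div_le_one hd).2 (by linarith [hx.2])⟩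
    have ex : x = a + d * t := by simp only [t]; field_simp; ring
    refine ⟨?_, ?_⟩
    · have : u + v * x = (1 - t) * α + t * β := by
        simp only [u, v, t]; field_simp; ring
      rw [this]
      exact add_nonneg (mul_nonneg (sub_nonneg.2 ht.2) hα) (mul_nonneg ht.1 hβ)
    · have := (hmem t ht).2
      rwa [(hline t).1, (hline t).2, ← ex] at this
  have hcal := calib h.hs h.a0 h.b1 h.range h.lo h.hi hG
  have hCle : Cc ≤ M.C := by
    calc Cc ≤ ∑ i, l i * (Q i).C := Finset.sum_le_sum fun i _ =>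
          mul_le_mul_of_nonneg_left (T.hC i) (hl i)
      _ = ∫ t in (0 : ℝ)..1, ∑ i, l i * H ((Q i).seg t).1 ((Q i).seg t).2 := by
          rw [intervalIntegral.integral_finsetSum fun i _ =>
            ((T.valid i).integrable le_rfl zero_le_one le_rfl).const_mul _]
          simp [Corner.C, intervalIntegral.integral_const_mul]
      _ ≤ M.C := by
          have hMi : IntervalIntegrable (fun t => H (M.seg t).1 (M.seg t).2) volume 0 1 := by
            have := (integrable_H (u := u) (v := v) h.a0 h.ab.le h.b1).comp_add_left a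
              |>.comp_mul_left (c := d)
            simpa [hline, hd.ne', d] using this
          refine integral_mono_on zero_le_one ?_ hMi fun t ht => ?_
          · have := IntervalIntegrable.sum (Finset.univ : Finset (Fin 3)) fun i _ =>
              ((T.valid i).integrable le_rfl zero_le_one le_rfl).const_mul (l i)
            simpa [Finset.sum_fn] using this
          · rw [hseg t]
            simpa using concaveOn_H.le_map_sum (fun i _ => hl i) hl1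
              fun i _ => (T.valid i).mem ht
  have hint : ∫ x in a..b, H x (u + v * x) = d * M.C := by
    have := smul_integral_comp_add_mul (a := (0 : ℝ)) (b := 1) (fun x => H x (u + v * x)) d a
    simp only [smul_eq_mul, mul_zero, add_zero, mul_one] at this
    rw [show a + d = b by ring] at this
    rw [← this]
    simp [Corner.C, hline]
  -- `ℓ` is affine in `W`
  set ℓ : ℝ → ℝ := fun W => sp * (α * (b - W) + β * (W - a)) + d ^ 2 * Cc
  have hp : ℓ V ≤ p * d := by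
    have hVb : V ≤ b := h.Vhalf.trans h.hb
    have h1 : sp * (α * (b - V) + β * (V - a)) ≤ Real.sqrt π * (α * (b - V) + β * (V - a)) :=
      mul_le_mul_of_nonneg_right sp_le (add_nonneg (mul_nonneg hα (sub_nonneg.2 hVb))
        (mul_nonneg hβ (sub_nonneg.2 h.aV)))
    have h2 : Real.sqrt π * (α * (b - V) + β * (V - a)) = Real.sqrt π * (u + v * V) * d := by
      simp only [u, v]; field_simp; simp only [d]; ring
    rw [hint] at hcal
    have h3 := mul_le_mul_of_nonneg_right hcal hd.le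
    have h4 := mul_le_mul_of_nonneg_left hCle (sq_nonneg d)
    simp only [ℓ]
    nlinarith
  have hcert : ∀ W κ, Cert Q C W κ → κ * d ≤ ℓ W := by
    rintro W κ ⟨c0, c1, c2, c3, c4, c5, c6, c7, c8, c9⟩
    have := cubic_nonneg _ l hl c0 c1 c2 c3 c4 c5 c6 c7 c8 c9
    have e : ∑ i, ∑ j, ∑ k, l i * l j * l k * form Q C W κ i j k = ℓ W - κ * d := by
      have h1 : l 2 = 1 - l 0 - l 1 := by
        simp only [Fin.sum_univ_three] at hl1; linarith
      simp only [form, ℓ, α, β, Cc, d, ← ea, ← eb, Fin.sum_univ_three, h1]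
      ring
    linarith
  have haff : ∀ W₀ W₁ k₀ k₁ : ℝ, W₀ < W₁ → W₀ ≤ V → V ≤ W₁ → k₀ ≤ ℓ W₀ → k₁ ≤ ℓ W₁ →
      k₀ + (V - W₀) / (W₁ - W₀) * (k₁ - k₀) ≤ ℓ V := by
    intro W₀ W₁ k₀ k₁ hW h0 h1 e0 e1
    set t := (V - W₀) / (W₁ - W₀)
    have ht0 : 0 ≤ t := div_nonneg (by linarith) (by linarith)
    have ht1 : t ≤ 1 := (div_le_one (by linarith)).2 (by linarith)
    have : ℓ V = (1 - t) * ℓ W₀ + t * ℓ W₁ := by
      have eV : V = (1 - t) * W₀ + t * W₁ := by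
        have := (sub_pos.2 hW).ne'
        simp only [t]; field_simp; ring
      simp only [ℓ]; rw [eV]; ring
    rw [this]
    nlinarith [mul_le_mul_of_nonneg_left e0 (sub_nonneg.2 ht1), mul_le_mul_of_nonneg_left e1 ht0]
  have hhalf := hcert _ _ T.half
  rcases T.rest with ⟨θ, hθ, h0, hP⟩ | hside
  · have k0 := hcert _ _ h0
    have kP := hcert _ _ hP
    rcases le_total V (1 / piHi) with hV | hV
    · have := haff 0 (1 / piHi) _ _ (by norm_num [piHi]) (h.a0.trans h.aV) hV k0 kP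
      refine jrel_le_tube h.Vhalf ?_
      refine le_of_mul_le_mul_right (le_trans ?_ (this.trans hp)) hd
      have hpi : π ≤ piHi := by unfold piHi; linarith [Real.pi_lt_d4]
      have hV0 : 0 ≤ V := h.a0.trans h.aV
      have e : θ / 2 * d + (V - 0) / (1 / piHi - 0) * ((θ + 1 / θ) / 2 * d - θ / 2 * d) =
          (θ / 2 + V * piHi / (2 * θ)) * d := by
        unfold piHi; field_simp; ring
      rw [e]
      refine mul_le_mul_of_nonneg_right ?_ hd.le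
      rw [Real.sqrt_le_left (by unfold piHi; positivity)]
      refine le_trans (mul_le_mul_of_nonneg_right hpi hV0) ?_
      have : 4 * (θ / 2) * (V * piHi / (2 * θ)) = piHi * V := by field_simp; ring
      nlinarith [sq_nonneg (θ / 2 - V * piHi / (2 * θ))]
    · refine (jrel_le_one _).trans (le_of_mul_le_mul_right ?_ hd)
      have h1 : 1 * d ≤ (θ + 1 / θ) / 2 * d := by
        refine mul_le_mul_of_nonneg_right ?_ hd.le
        have : θ * (1 / θ) = 1 := by field_simp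
        nlinarith [sq_nonneg (θ - 1)]
      refine le_trans ?_ ((haff (1 / piHi) (1 / 2) (1 * d) (1 * d) (by norm_num [piHi]) hV h.Vhalf
        (h1.trans kP) hhalf).trans hp)
      simp
  · refine (jrel_le_one _).trans (le_of_mul_le_mul_right ?_ hd)
    have hsa : 1 ≤ sp * α := by
      calc (1 : ℝ) = ∑ i, l i * 1 := by simp [hl1]
        _ ≤ ∑ i, l i * (sp * (Q i).α) := Finset.sum_le_sum fun i _ =>
            mul_le_mul_of_nonneg_left (hside i).1 (hl i)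
        _ = sp * α := by simp [α, Finset.mul_sum]; congr 1; ext i; ring
    have hC0 : 0 ≤ Cc := Finset.sum_nonneg fun i _ => mul_nonneg (hl i) (hside i).2
    have ka : 1 * d ≤ ℓ a := by
      simp only [ℓ, sub_self, mul_zero, add_zero]
      nlinarith [mul_le_mul_of_nonneg_right hsa hd.le, mul_nonneg (sq_nonneg d) hC0]
    rcases h.aV.eq_or_lt with e | hlt
    · exact ka.trans (e ▸ hp)
    · refine le_trans ?_ ((haff a (1 / 2) (1 * d) (1 * d) (hlt.trans_le h.Vhalf) h.aV h.Vhalf ka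
        hhalf).trans hp)
      simp

theorem Setting.box {A : ℝ → ℝ} {p a b : ℝ} (h : Setting A p a b) {a₀ a₁ b₀ b₁ : ℝ}
    (ha : a ∈ Icc a₀ a₁) (hb : b ∈ Icc b₀ b₁) (hlta : a₀ < a₁) (hltb : b₀ < b₁)
    {Q R : Fin 3 → Corner} {C D : Fin 3 → ℝ}
    (hQ : Tri Q C) (hR : Tri R D)
    (hQa : (Q 0).a = a₀ ∧ (Q 1).a = a₁ ∧ (Q 2).a = a₀)
    (hQb : (Q 0).b = b₀ ∧ (Q 1).b = b₀ ∧ (Q 2).b = b₁)
    (hRa : (R 0).a = a₁ ∧ (R 1).a = a₀ ∧ (R 2).a = a₁)
    (hRb : (R 0).b = b₁ ∧ (R 1).b = b₁ ∧ (R 2).b = b₀) :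
    jrel (∫ z in (0 : ℝ)..1, A z) ≤ p := by
  set u := (a - a₀) / (a₁ - a₀)
  set v := (b - b₀) / (b₁ - b₀)
  have hu : u ∈ Icc (0 : ℝ) 1 :=
    ⟨div_nonneg (by linarith [ha.1]) (by linarith),
      (div_le_one (by linarith)).2 (by linarith [ha.2])⟩
  have hv : v ∈ Icc (0 : ℝ) 1 :=
    ⟨div_nonneg (by linarith [hb.1]) (by linarith),
      (div_le_one (by linarith)).2 (by linarith [hb.2])⟩
  have eu : a = a₀ + u * (a₁ - a₀) := by
    simp only [u]; rw [div_mul_cancel₀ _ (sub_pos.2 hlta).ne']; ring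
  have ev : b = b₀ + v * (b₁ - b₀) := by
    simp only [v]; rw [div_mul_cancel₀ _ (sub_pos.2 hltb).ne']; ring
  rcases le_total (u + v) 1 with huv | huv
  · refine hQ.jrel_le h ![1 - u - v, u, v] ?_ (by simp [Fin.sum_univ_three]; ring) ?_ ?_
    · intro i; fin_cases i <;> simp [hu.1, hv.1]; linarith
    · simp [Fin.sum_univ_three, hQa.1, hQa.2.1, hQa.2.2]; rw [eu]; ring
    · simp [Fin.sum_univ_three, hQb.1, hQb.2.1, hQb.2.2]; rw [ev]; ring
  · refine hR.jrel_le h ![u + v - 1, 1 - u, 1 - v] ?_ (by simp [Fin.sum_univ_three]) ?_ ?_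
    · intro i; fin_cases i <;> simp [hu.2, hv.2]; linarith
    · simp [Fin.sum_univ_three, hRa.1, hRa.2.1, hRa.2.2]; rw [eu]; ring
    · simp [Fin.sum_univ_three, hRb.1, hRb.2.1, hRb.2.2]; rw [ev]; ring

end Vale.Agent.P232.BandFree
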