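import Vale.Agent.P232.BandFree.Calib

/-!
# P232: band-free slices of area at most one half

The chord calibration and `∫ √((A-a)(b-A)/A) ≥ (2/3)(√b-√a)(b-a)` reduce to AM-GM: ball or tube.
-/

open MeasureTheory Set intervalIntegral
open scoped Real

noncomputable section

namespace Vale.Agent.P232.BandFree

/-- `J/2` in relative normalisation: octant of a ball, quarter tube, slab. -/
def jrel (V : ℝ) : ℝ :=
  min ((9 * π / 2) ^ ((1 : ℝ) / 3) * min V (1 - V) ^ ((2 : ℝ) / 3))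
    (min (Real.sqrt (π * min V (1 - V))) 1)

theorem jrel_le_ball {V X : ℝ} (hV : 0 ≤ V) (hV' : V ≤ 1 / 2) (hX : 0 ≤ X)
    (h : 9 * π / 2 * V ^ 2 ≤ X ^ 3) : jrel V ≤ X := by
  refine (min_le_left _ _).trans ?_
  rw [min_eq_left (by linarith)]
  have e : (9 * π / 2) ^ ((1 : ℝ) / 3) * V ^ ((2 : ℝ) / 3) =
      (9 * π / 2 * V ^ 2) ^ ((1 : ℝ) / 3) := by
    rw [Real.mul_rpow (by positivity) (by positivity), ← Real.rpow_natCast V 2,
      ← Real.rpow_mul hV]
    norm_num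
  rw [e]
  calc (9 * π / 2 * V ^ 2) ^ ((1 : ℝ) / 3) ≤ (X ^ 3) ^ ((1 : ℝ) / 3) :=
        Real.rpow_le_rpow (by positivity) h (by norm_num)
    _ = X := by rw [← Real.rpow_natCast X 3, ← Real.rpow_mul hX]; norm_num

theorem jrel_le_tube {V X : ℝ} (hV' : V ≤ 1 / 2) (h : Real.sqrt (π * V) ≤ X) :
    jrel V ≤ X := by
  refine ((min_le_right _ _).trans (min_le_left _ _)).trans ?_
  rwa [min_eq_left (by linarith)]

theorem jrel_le_one (V : ℝ) : jrel V ≤ 1 := (min_le_right _ _).trans (min_le_right _ _)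

/-- The key integral in the variable `R = √A`. -/
theorem two_thirds_le_integral {x y : ℝ} (hx : 0 ≤ x) (hxy : x ≤ y) :
    (y - x) ^ 2 * (x + y) / 3 ≤
      ∫ R in x..y, Real.sqrt ((R ^ 2 - x ^ 2) * (y ^ 2 - R ^ 2)) := by
  rcases hxy.eq_or_lt with rfl | hlt
  · simp
  set D := y - x
  have hD : 0 < D := sub_pos.2 hlt
  have hpt : ∀ R ∈ Icc x y, 2 * x * (2 / D * ((R - x) * (y - R))) +
      (R - x) * Real.sqrt (D ^ 2 - (R - x) ^ 2) ≤
        Real.sqrt ((R ^ 2 - x ^ 2) * (y ^ 2 - R ^ 2)) := by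
    intro R hR
    have h1 : 0 ≤ R - x := by linarith [hR.1]
    have h2 : 0 ≤ y - R := by linarith [hR.2]
    set q := R - x + D
    have hq : 0 ≤ q := by linarith
    have e : (R ^ 2 - x ^ 2) * (y ^ 2 - R ^ 2) =
        ((R - x) * (y - R)) * ((2 * x + (R - x)) * (2 * x + q)) := by ring
    have h3 : 2 / D * ((R - x) * (y - R)) ≤ Real.sqrt ((R - x) * (y - R)) := by
      have hr := Real.mul_self_sqrt (mul_nonneg h1 h2)
      have hle : Real.sqrt ((R - x) * (y - R)) ≤ D / 2 := by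
        rw [Real.sqrt_le_left (by positivity)]
        nlinarith [sq_nonneg (R - x - (y - R))]
      rw [div_mul_eq_mul_div, div_le_iff₀ hD]
      nlinarith [Real.sqrt_nonneg ((R - x) * (y - R))]
    have h4 : 2 * x + Real.sqrt ((R - x) * q) ≤ Real.sqrt ((2 * x + (R - x)) * (2 * x + q)) := by
      apply Real.le_sqrt_of_sq_le
      have hs := Real.mul_self_sqrt (mul_nonneg h1 hq)
      nlinarith [two_mul_le_add_sq (Real.sqrt (R - x)) (Real.sqrt q), Real.sq_sqrt h1,
        Real.sq_sqrt hq, Real.sqrt_mul h1 q]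
    have h5 : Real.sqrt ((R - x) * (y - R)) * Real.sqrt ((R - x) * q) =
        (R - x) * Real.sqrt (D ^ 2 - (R - x) ^ 2) := by
      rw [← Real.sqrt_mul (mul_nonneg h1 h2), show (R - x) * (y - R) * ((R - x) * q) =
        (R - x) ^ 2 * (D ^ 2 - (R - x) ^ 2) by ring, Real.sqrt_mul (sq_nonneg _), Real.sqrt_sq h1]
    rw [e, Real.sqrt_mul (mul_nonneg h1 h2)]
    calc _ ≤ Real.sqrt ((R - x) * (y - R)) * (2 * x + Real.sqrt ((R - x) * q)) := by
          rw [mul_add, h5]; nlinarith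
      _ ≤ _ := mul_le_mul_of_nonneg_left h4 (Real.sqrt_nonneg _)
  have hF : ∀ R ∈ uIcc x y,
      HasDerivAt (fun R => 4 * x / D * (D * (R - x) ^ 2 / 2 - (R - x) ^ 3 / 3) -
        (D ^ 2 - (R - x) ^ 2) ^ ((3 : ℝ) / 2) / 3)
        (2 * x * (2 / D * ((R - x) * (y - R))) +
          (R - x) * Real.sqrt (D ^ 2 - (R - x) ^ 2)) R := by
    intro R _
    have hd : HasDerivAt (fun R => R - x) 1 R := (hasDerivAt_id R).sub_const x
    have h1 := ((((hd.pow 2).const_mul D).div_const 2).sub ((hd.pow 3).div_const 3)).const_mul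
      (4 * x / D)
    have h2 := (((hd.pow 2).const_sub (D ^ 2)).rpow_const (p := (3 : ℝ) / 2)
      (Or.inr (by norm_num))).div_const 3
    refine (h1.sub h2).congr_deriv ?_
    rw [Real.sqrt_eq_rpow]
    norm_num [D]
    field_simp
    ring
  have hc : Continuous fun R : ℝ => 2 * x * (2 / D * ((R - x) * (y - R))) +
      (R - x) * Real.sqrt (D ^ 2 - (R - x) ^ 2) := by fun_prop
  refine le_trans ?_ (integral_mono_on hxy (hc.intervalIntegrable _ _)
    ((by fun_prop : Continuous fun R : ℝ =>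
      Real.sqrt ((R ^ 2 - x ^ 2) * (y ^ 2 - R ^ 2))).intervalIntegrable _ _) hpt)
  rw [integral_eq_sub_of_hasDerivAt hF (hc.intervalIntegrable _ _)]
  have e1 : ((D ^ 2) ^ ((3 : ℝ) / 2)) = D ^ 3 := by
    rw [← Real.rpow_natCast D 2, ← Real.rpow_mul hD.le, ← Real.rpow_natCast D 3]; norm_num
  simp only [show y - x = D from rfl, sub_self]
  norm_num [e1]
  field_simp
  have hy : y = x + D := by ring
  rw [hy]
  nlinarith [mul_nonneg hx (sq_nonneg D)]

/-- The gain of the chord calibration on a range `[a, b]` inside `[0, 1/2]`. -/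
theorem chord_gain {a b : ℝ} (ha : 0 ≤ a) (hab : a ≤ b) (hb : b ≤ 1 / 2) (hb0 : 0 < b) :
    2 / 3 * (Real.sqrt b - Real.sqrt a) ^ 2 ≤ ∫ t in a..b, H t
      (Real.sqrt a * Real.sqrt b / (Real.sqrt a + Real.sqrt b) +
        1 / (Real.sqrt a + Real.sqrt b) * t) := by
  set x := Real.sqrt a
  set y := Real.sqrt b
  have hxa : x ^ 2 = a := Real.sq_sqrt ha
  have hyb : y ^ 2 = b := Real.sq_sqrt (ha.trans hab)
  have hx0 : 0 ≤ x := Real.sqrt_nonneg _
  have hy0 : 0 < y := Real.sqrt_pos.2 hb0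
  have hxy : x ≤ y := Real.sqrt_le_sqrt hab
  have hS : 0 < x + y := by linarith
  have hm : ∀ t ∈ Icc a b, mh t = t := fun t ht => min_eq_left (by linarith [ht.2])
  set K : ℝ → ℝ := fun t => Real.sqrt ((b - t) * (1 - a / t)) / (x + y)
  have hK : ∀ t ∈ Ioo a b, H t (x * y / (x + y) + 1 / (x + y) * t) = K t := by
    intro t ht
    have ht0 : 0 < t := ha.trans_lt ht.1
    show Real.sqrt _ = _
    rw [hm t ⟨ht.1.le, ht.2.le⟩,
      show K t = Real.sqrt (((b - t) * (1 - a / t)) / (x + y) ^ 2) by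
        rw [Real.sqrt_div' _ (sq_nonneg _), Real.sqrt_sq hS.le]]
    congr 1
    rw [← hxa, ← hyb]
    field_simp
    ring
  have hKc : ContinuousOn K (Icc a b) := by
    rcases ha.eq_or_lt with rfl | ha'
    · simp only [K, zero_div, sub_zero, mul_one]; fun_prop
    · refine ContinuousOn.div_const (ContinuousOn.sqrt (ContinuousOn.mul (by fun_prop)
        (continuousOn_const.sub (continuousOn_const.div continuousOn_id fun t ht =>
          (ha'.trans_le ht.1).ne')))) _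
  rw [intervalIntegral.integral_congr_Ioo_of_le hab fun t ht => hK t ht]
  have hsub := integral_comp_mul_deriv' (a := x) (b := y) (f := fun R : ℝ => R ^ 2)
    (f' := fun R => 2 * R) (g := K) (fun R _ => by simpa using hasDerivAt_pow 2 R)
    (by fun_prop) (hKc.mono (by
      rintro _ ⟨R, hR, rfl⟩
      rw [uIcc_of_le hxy] at hR
      exact ⟨hxa ▸ pow_le_pow_left₀ hx0 hR.1 2, hyb ▸ pow_le_pow_left₀ (hx0.trans hR.1) hR.2 2⟩))
  simp only [hxa, hyb, Function.comp_apply] at hsub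
  have e : ∫ R in x..y, K (R ^ 2) * (2 * R) =
      2 / (x + y) * ∫ R in x..y, Real.sqrt ((R ^ 2 - x ^ 2) * (y ^ 2 - R ^ 2)) := by
    rw [← intervalIntegral.integral_const_mul]
    refine intervalIntegral.integral_congr_Ioo_of_le hxy fun R hR => ?_
    have hR0 : 0 < R := hx0.trans_lt hR.1
    show Real.sqrt _ / (x + y) * (2 * R) = _
    rw [show (R ^ 2 - x ^ 2) * (y ^ 2 - R ^ 2) = R ^ 2 * ((b - R ^ 2) * (1 - a / R ^ 2)) by
      rw [← hxa, ← hyb]; field_simp, Real.sqrt_mul (sq_nonneg _), Real.sqrt_sq hR0.le]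
    ring
  rw [← hsub, e]
  refine le_trans (le_of_eq ?_) (mul_le_mul_of_nonneg_left (two_thirds_le_integral hx0 hxy)
    (by positivity : (0 : ℝ) ≤ 2 / (x + y)))
  field_simp

/-- The bound in closed form for slices of area at most one half. -/
theorem low_bound {A : ℝ → ℝ} {p : ℝ} (hs : Slicing A p) {a b : ℝ} (ha : 0 ≤ a) (hb0 : 0 < b)
    (hab : a ≤ b) (hb : b ≤ 1 / 2) (hrange : ∀ z ∈ Ioo (0 : ℝ) 1, A z ∈ Icc a b)
    (hlo : ∀ δ : ℝ, 0 < δ → ∃ z ∈ Ioo (0 : ℝ) 1, A z < a + δ)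
    (hhi : ∀ δ : ℝ, 0 < δ → ∃ z ∈ Ioo (0 : ℝ) 1, b - δ < A z) :
    Real.sqrt π * ((∫ z in (0 : ℝ)..1, A z) + Real.sqrt a * Real.sqrt b) /
      (Real.sqrt a + Real.sqrt b) + 2 / 3 * (Real.sqrt b - Real.sqrt a) ^ 2 ≤ p := by
  set V := ∫ z in (0 : ℝ)..1, A z
  set x := Real.sqrt a
  set y := Real.sqrt b
  have hxa : x ^ 2 = a := Real.sq_sqrt ha
  have hyb : y ^ 2 = b := Real.sq_sqrt (ha.trans hab)
  have hx0 : 0 ≤ x := Real.sqrt_nonneg _
  have hy0 : 0 < y := Real.sqrt_pos.2 hb0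
  have hxy : x ≤ y := Real.sqrt_le_sqrt hab
  have hS : 0 < x + y := by linarith
  have hm : ∀ t ∈ Icc a b, mh t = t := fun t ht => min_eq_left (by linarith [ht.2])
  have hG : ∀ t ∈ Icc a b,
      0 ≤ x * y / (x + y) + 1 / (x + y) * t ∧ (x * y / (x + y) + 1 / (x + y) * t) ^ 2 ≤ mh t := by
    intro t ht
    have ht0 : 0 ≤ t := ha.trans ht.1
    refine ⟨by positivity, ?_⟩
    rw [hm t ht, show x * y / (x + y) + 1 / (x + y) * t = (x * y + t) / (x + y) by ring, div_pow,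
      div_le_iff₀ (by positivity)]
    nlinarith [mul_nonneg (sub_nonneg.2 ht.1) (sub_nonneg.2 ht.2)]
  have h := calib hs ha (by linarith) hrange hlo hhi hG
  have hI : 2 / 3 * (y - x) ^ 2 ≤ ∫ t in a..b, H t (x * y / (x + y) + 1 / (x + y) * t) :=
    chord_gain ha hab hb hb0
  set r := Real.sqrt π
  have hr : r ^ 2 = π := Real.sq_sqrt Real.pi_pos.le
  have hr0 : 0 ≤ r := Real.sqrt_nonneg _
  refine le_trans (le_of_eq ?_) ((add_le_add_right hI _).trans h)
  field_simp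
  ring

/-- Slices of area at most one half. -/
theorem low {A : ℝ → ℝ} {p : ℝ} (hs : Slicing A p) {a b : ℝ} (ha : 0 ≤ a)
    (hb : b ≤ 1 / 2) (hrange : ∀ z ∈ Ioo (0 : ℝ) 1, A z ∈ Icc a b)
    (hlo : ∀ δ : ℝ, 0 < δ → ∃ z ∈ Ioo (0 : ℝ) 1, A z < a + δ)
    (hhi : ∀ δ : ℝ, 0 < δ → ∃ z ∈ Ioo (0 : ℝ) 1, b - δ < A z)
    (haV : a ≤ ∫ z in (0 : ℝ)..1, A z) (hVb : ∫ z in (0 : ℝ)..1, A z ≤ b) :
    jrel (∫ z in (0 : ℝ)..1, A z) ≤ p := by
  set V := ∫ z in (0 : ℝ)..1, A z
  have hab : a ≤ b := haV.trans hVb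
  rcases (ha.trans hab).eq_or_lt with hb0 | hb0
  · have hV : V = 0 := by linarith
    have h := calib hs ha (by linarith) hrange hlo hhi (u := 0) (v := 0)
      fun x hx => ⟨by simp, by
        simpa using mh_nonneg (x := x) ⟨ha.trans hx.1, by linarith [hx.2]⟩⟩
    rw [show a = b by linarith, integral_same] at h
    rw [hV]
    exact jrel_le_tube (by norm_num) (by simpa using h)
  have hxy' := low_bound hs ha hb0 hab hb hrange hlo hhi
  set x := Real.sqrt a
  set y := Real.sqrt b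
  have hx0 : 0 ≤ x := Real.sqrt_nonneg _
  have hy0 : 0 < y := Real.sqrt_pos.2 hb0
  have hS : 0 < x + y := by linarith
  set r := Real.sqrt π
  have hr : r ^ 2 = π := Real.sq_sqrt Real.pi_pos.le
  have hr0 : 0 ≤ r := Real.sqrt_nonneg _
  have hV0 : 0 ≤ V := ha.trans haV
  have hV2 : V ≤ 1 / 2 := hVb.trans hb
  set q := r / (x + y) - 8 / 3
  set base := r * V / (x + y) + 2 / 3 * (x + y) ^ 2
  have hp : base + x * y * q ≤ p := by
    refine le_trans (le_of_eq ?_) hxy'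
    simp only [base, q]
    field_simp
    ring
  rcases le_total 0 q with hq | hq
  · refine (jrel_le_ball hV0 hV2 (by positivity) ?_).trans
      ((le_add_of_nonneg_right (by positivity)).trans hp)
    set X := r * V / (2 * (x + y))
    have hX : base = 2 * X + 2 / 3 * (x + y) ^ 2 := by simp only [base, X]; field_simp
    have e : 9 * π / 2 * V ^ 2 = 27 * X ^ 2 * (2 / 3 * (x + y) ^ 2) := by
      simp only [X]; rw [← hr]; field_simp; ring
    rw [hX, e]
    have hX0 : 0 ≤ X := by positivity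
    nlinarith [mul_nonneg (sq_nonneg (X - 2 / 3 * (x + y) ^ 2))
      (add_nonneg (mul_nonneg (by norm_num : (0:ℝ) ≤ 8) hX0) (sq_nonneg (x + y)))]
  · refine jrel_le_tube hV2 (le_trans ?_ hp)
    calc Real.sqrt (π * V) ≤ r * (V / (x + y) + (x + y) / 4) := by
          rw [Real.sqrt_mul Real.pi_pos.le]
          refine mul_le_mul_of_nonneg_left ?_ hr0
          rw [div_add_div _ _ hS.ne' four_ne_zero, le_div_iff₀ (by positivity)]
          nlinarith [Real.sq_sqrt hV0, sq_nonneg (2 * Real.sqrt V - (x + y))]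
      _ = base + (x + y) ^ 2 / 4 * q := by
          simp only [base, q]
          field_simp
          ring
      _ ≤ _ := by nlinarith [sq_nonneg (x - y)]

end Vale.Agent.P232.BandFree
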