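import Vale.Agent.P232.BandFree.Low

/-!
# P232: the patch at the ball (case B of phase 1)

Range `[a, b]` of the slice areas with `a` tiny and `1/π ≤ b ≤ 1/2`: bands are paid by the budget
`∫ u ≤ a` with multiplier `π/2`, and the chord calibration still beats ball or tube.
-/

open MeasureTheory Set intervalIntegral
open scoped Real

noncomputable section

namespace Vale.Agent.P232.BandFree

/-- The slicing inequality in one direction with the band budget (T1 of the phase 1 proof). -/
def MasterBound (V a b p : ℝ) : Prop :=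
  ∀ lam E mu : ℝ, ∀ c : ℝ → ℝ, 0 ≤ mu → Continuous c → (∀ t, 0 ≤ c t) → (∀ t, c t ≤ 1) →
    (∀ A ∈ Icc a b, lam * A + E ≤ c A * Real.sqrt (π * min A (1 - A))) →
    (∀ A ∈ Icc a b, 1 / π ≤ A → A ≤ 1 - 1 / π → lam * A + E - mu * (A - 1 / π) ≤ c A) →
      lam * V + E - mu * a + (∫ A in a..b, Real.sqrt (1 - c A ^ 2)) ≤ p

/-- The scalar inequality of the patch, `√π` bracketed by rationals. -/
theorem patch_scalar {x y V : ℝ} (hx : 0 ≤ x) (hx1 : x ≤ 633 / 10000)
    (hy : 564 / 1000 ≤ y) (hy1 : y ≤ 708 / 1000) (hV : 0 ≤ V) (hV1 : V ≤ 17 / 100) :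
    jrel V ≤ Real.sqrt π * (V + x * y) / (x + y) + 2 / 3 * (y - x) ^ 2 - π / 2 * x ^ 2 := by
  set r := Real.sqrt π
  have hr : r ^ 2 = π := Real.sq_sqrt Real.pi_pos.le
  have hr0 : 0 ≤ r := Real.sqrt_nonneg _
  have hπ := Real.pi_gt_d4
  have hπ' := Real.pi_lt_d4
  have hr1 : 17724 / 10000 ≤ r := by nlinarith
  have hr2 : r ≤ 17725 / 10000 := by nlinarith
  set S := x + y
  have hS : 0 < S := by linarith
  rcases le_total S (62 / 100) with hS1 | hS1
  · -- the gain `x y (√π/S - 8/3)` pays the budget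
    have hV2 : V ≤ 1 / 2 := by linarith
    have hX : 0 ≤ r * V / S + 2 / 3 * S ^ 2 := by positivity
    refine (jrel_le_ball hV hV2 hX ?_).trans ?_
    · set X := r * V / (2 * S)
      have hX2 : r * V / S + 2 / 3 * S ^ 2 = 2 * X + 2 / 3 * S ^ 2 := by
        simp only [X]; field_simp
      have e : 9 * π / 2 * V ^ 2 = 27 * X ^ 2 * (2 / 3 * S ^ 2) := by
        simp only [X]; rw [← hr]; field_simp; ring
      rw [hX2, e]
      have hX0 : 0 ≤ X := by positivity
      nlinarith [mul_nonneg (sq_nonneg (X - 2 / 3 * S ^ 2))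
        (add_nonneg (mul_nonneg (by norm_num : (0 : ℝ) ≤ 8) hX0) (sq_nonneg S))]
    · have hq : 19 / 100 ≤ r / S - 8 / 3 := by
        rw [le_sub_iff_add_le, le_div_iff₀ hS]; nlinarith
      have h1 : π / 2 * x ^ 2 ≤ x * y * (r / S - 8 / 3) := by
        have h2 : x * y * (19 / 100) ≤ x * y * (r / S - 8 / 3) :=
          mul_le_mul_of_nonneg_left hq (by positivity)
        nlinarith [mul_le_mul_of_nonneg_left hx1 hx, mul_nonneg hx (sub_nonneg.2 hy)]
      have e : r * (V + x * y) / S + 2 / 3 * (y - x) ^ 2 =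
          r * V / S + 2 / 3 * S ^ 2 + x * y * (r / S - 8 / 3) := by
        simp only [S]; field_simp; ring
      linarith
  · -- away from the ball: compare with tangents of ball and tube at `V = 31/200`
    have hS2 : S ≤ 772 / 1000 := by linarith
    have key : 6979 / 10000 ≤ r * (31 / 200 + x * y) / S + 2 / 3 * (y - x) ^ 2 - π / 2 * x ^ 2 := by
      rw [le_sub_iff_add_le, div_add' _ _ _ hS.ne', le_div_iff₀ hS]
      have h1 : (17724 / 10000) * (31 / 200 + x * y) ≤ r * (31 / 200 + x * y) :=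
        mul_le_mul_of_nonneg_right hr1 (by positivity)
      have h2 : π / 2 * x ^ 2 * S ≤ 15708 / 10000 * x ^ 2 * S :=
        mul_le_mul_of_nonneg_right (mul_le_mul_of_nonneg_right
          (by linarith : π / 2 ≤ 15708 / 10000) (sq_nonneg x)) hS.le
      simp only [S] at *
      nlinarith [mul_nonneg hx (sub_nonneg.2 hx1), mul_nonneg (sub_nonneg.2 hS1) hx,
        mul_nonneg (sub_nonneg.2 hS1) (sub_nonneg.2 hx1),
        mul_nonneg (sub_nonneg.2 hS1) (sq_nonneg (x + y - 62 / 100))]
    rcases le_total V (31 / 200) with hV2 | hV2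
    · refine (jrel_le_ball hV (by linarith) (X := 2328 / 10000 + 3 * V) (by positivity) ?_).trans ?_
      · nlinarith [mul_nonneg (sq_nonneg (3 * V / 2 - 2328 / 10000))
          (add_nonneg (mul_nonneg (by norm_num : (0 : ℝ) ≤ 8) (div_nonneg (mul_nonneg
            (by norm_num : (0 : ℝ) ≤ 3) hV) zero_le_two)) (by norm_num : (0 : ℝ) ≤ 2328 / 10000)),
          mul_le_mul_of_nonneg_right hπ'.le (sq_nonneg V)]
      · have hs : r / S ≤ 3 := by rw [div_le_iff₀ hS]; linarith
        have h3 := mul_le_mul_of_nonneg_left hs (sub_nonneg.2 hV2)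
        have e : r * (V + x * y) / S =
            r * (31 / 200 + x * y) / S - (31 / 200 - V) * (r / S) := by ring
        linarith
    · refine (jrel_le_tube (by linarith) (X := 698 / 2000 + 31416 / 13960 * V) ?_).trans ?_
      · rw [Real.sqrt_le_left (by positivity)]
        nlinarith [mul_le_mul_of_nonneg_left hπ'.le hV, sq_nonneg (698 / 2000 - 31416 / 13960 * V)]
      · have hs : 31416 / 13960 ≤ r / S := by rw [le_div_iff₀ hS]; nlinarith
        have h3 := mul_le_mul_of_nonneg_left hs (sub_nonneg.2 hV2)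
        have e : r * (V + x * y) / S =
            r * (31 / 200 + x * y) / S + (V - 31 / 200) * (r / S) := by ring
        linarith

/-- Case B, the bound in closed form. -/
theorem patch_bound {V a b p : ℝ} (h : MasterBound V a b p) (ha : 0 ≤ a) (ha1 : a ≤ 1 / 250)
    (hb : 1 / π ≤ b) (hb1 : b ≤ 1 / 2) :
    Real.sqrt π * (V + Real.sqrt a * Real.sqrt b) / (Real.sqrt a + Real.sqrt b) +
      2 / 3 * (Real.sqrt b - Real.sqrt a) ^ 2 - π / 2 * a ≤ p := by
  set x := Real.sqrt a
  set y := Real.sqrt b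
  have hπ' := Real.pi_lt_d4
  have hb' : 3183 / 10000 ≤ b :=
    le_trans (by rw [le_div_iff₀ Real.pi_pos]; linarith) hb
  have hab : a ≤ b := by linarith
  have hb0 : 0 < b := by linarith
  have hxa : x ^ 2 = a := Real.sq_sqrt ha
  have hyb : y ^ 2 = b := Real.sq_sqrt hb0.le
  have hx0 : 0 ≤ x := Real.sqrt_nonneg _
  have hy0 : 0 < y := Real.sqrt_pos.2 hb0
  have hS : 0 < x + y := by linarith
  set u := x * y / (x + y)
  set v := 1 / (x + y)
  -- calibration `c = (u + v t)/√t` on `[a, b]`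
  set g : ℝ → ℝ := fun t => v * Real.sqrt t + u / Real.sqrt t
  set c : ℝ → ℝ := fun t => min 1 (g (max a t))
  have hgt : ∀ t ∈ Icc a b, g t * Real.sqrt t = u + v * t ∧ g t ≤ 1 := by
    intro t ht
    have ht0 : 0 ≤ t := ha.trans ht.1
    rcases ht0.eq_or_lt with e | ht0
    · have ha0 : a = 0 := by linarith [ht.1]
      have hu : u = 0 := by simp [u, x, ha0]
      simp [g, ← e, hu]
    have hq := Real.sq_sqrt ht0.le
    have e1 : g t * Real.sqrt t = u + v * t := by
      simp only [g]; field_simp; rw [hq]; ring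
    refine ⟨e1, le_of_mul_le_mul_right ?_ (Real.sqrt_pos.2 ht0)⟩
    rw [e1, one_mul, show u + v * t = (x * y + t) / (x + y) by simp only [u, v]; ring,
      div_le_iff₀ hS]
    have h1 : x ≤ Real.sqrt t := Real.sqrt_le_sqrt ht.1
    have h2 : Real.sqrt t ≤ y := Real.sqrt_le_sqrt ht.2
    nlinarith [mul_nonneg (sub_nonneg.2 h1) (sub_nonneg.2 h2)]
  have hgc : ContinuousOn g (Ici a) := by
    rcases ha.eq_or_lt with e | ha'
    · have hu : u = 0 := by simp [u, x, ← e]
      simp only [g, hu, zero_div, add_zero]; fun_prop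
    · exact (Continuous.continuousOn (by fun_prop)).add (continuousOn_const.div
        (by fun_prop) fun t ht => (Real.sqrt_pos.2 (ha'.trans_le ht)).ne')
  have hc : Continuous c :=
    continuous_const.min (hgc.comp_continuous (by fun_prop) fun t => le_max_left a t)
  have hu0 : 0 ≤ u := by positivity
  have hv0 : 0 ≤ v := by positivity
  have hc0 : ∀ t, 0 ≤ c t := fun t => le_min zero_le_one (by positivity)
  have hct : ∀ t ∈ Icc a b, c t = g t := fun t ht => by
    show min 1 (g (max a t)) = _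
    rw [max_eq_right ht.1, min_eq_right (hgt t ht).2]
  have hm : ∀ t ∈ Icc a b, min t (1 - t) = t := fun t ht => min_eq_left (by linarith [ht.2])
  have hπ2 : Real.sqrt π ^ 2 = π := Real.sq_sqrt Real.pi_pos.le
  have hT := h (Real.sqrt π * v) (Real.sqrt π * u) (π / 2) c (by positivity) hc hc0
    (fun t => min_le_left _ _) ?_ ?_
  · have hI : 2 / 3 * (y - x) ^ 2 ≤ ∫ t in a..b, Real.sqrt (1 - c t ^ 2) := by
      refine (chord_gain ha hab hb1 hb0).trans (le_of_eq ?_)
      refine intervalIntegral.integral_congr_Ioo_of_le hab fun t ht => ?_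
      have ht' : t ∈ Icc a b := ⟨ht.1.le, ht.2.le⟩
      have ht0 : 0 < t := ha.trans_lt ht.1
      show Real.sqrt (1 - (u + v * t) ^ 2 / mh t) = _
      rw [hct t ht', ← (hgt t ht').1, mul_pow, Real.sq_sqrt ht0.le, mh, hm t ht',
        mul_div_cancel_right₀ _ ht0.ne']
    show Real.sqrt π * (V + x * y) / (x + y) + 2 / 3 * (y - x) ^ 2 - π / 2 * a ≤ p
    have e : Real.sqrt π * (V + x * y) / (x + y) =
        Real.sqrt π * v * V + Real.sqrt π * u := by simp only [u, v]; ring
    linarith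
  · intro t ht
    rw [hm t ht, Real.sqrt_mul Real.pi_pos.le, hct t ht,
      show g t * (Real.sqrt π * Real.sqrt t) = Real.sqrt π * (g t * Real.sqrt t) by ring,
      (hgt t ht).1]
    exact le_of_eq (by ring)
  · intro t ht ht1 _
    have ht0 : 0 < t := lt_of_lt_of_le (by positivity) ht1
    rw [hct t ht, show Real.sqrt π * v * t + Real.sqrt π * u =
      Real.sqrt π * (u + v * t) by ring, ← (hgt t ht).1]
    set r := Real.sqrt π * Real.sqrt t
    have hr : r ^ 2 = π * t := by rw [mul_pow, hπ2, Real.sq_sqrt ht0.le]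
    have hpt : 1 ≤ π * t := by
      rw [div_le_iff₀ Real.pi_pos] at ht1; linarith
    have hr1 : 1 ≤ r := by nlinarith [mul_nonneg (Real.sqrt_nonneg π) (Real.sqrt_nonneg t)]
    have hg0 : 0 ≤ g t := by positivity
    have e : π / 2 * (t - 1 / π) = (r ^ 2 - 1) / 2 := by rw [hr]; field_simp
    rw [e, show Real.sqrt π * (g t * Real.sqrt t) = g t * r by simp only [r]; ring]
    nlinarith [mul_le_mul_of_nonneg_right (hgt t ht).2 (sub_nonneg.2 hr1)]

/-- Case B. -/
theorem patch {V a b p : ℝ} (h : MasterBound V a b p) (ha : 0 ≤ a) (ha1 : a ≤ 1 / 250)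
    (hb : 1 / π ≤ b) (hb1 : b ≤ 1 / 2) (haV : a ≤ V) (hV : V ≤ 17 / 100) : jrel V ≤ p := by
  have hb' : 3183 / 10000 ≤ b := le_trans
    (by rw [le_div_iff₀ Real.pi_pos]; linarith [Real.pi_lt_d4]) hb
  have hy : 564 / 1000 ≤ Real.sqrt b := Real.le_sqrt_of_sq_le (by linarith)
  have hy1 : Real.sqrt b ≤ 708 / 1000 := (Real.sqrt_le_left (by norm_num)).2 (by linarith)
  have hx1 : Real.sqrt a ≤ 633 / 10000 := (Real.sqrt_le_left (by norm_num)).2 (by linarith)
  refine (patch_scalar (Real.sqrt_nonneg a) hx1 hy hy1 (ha.trans haV) hV).trans ?_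
  rw [Real.sq_sqrt ha]
  exact patch_bound h ha ha1 hb hb1

end Vale.Agent.P232.BandFree
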